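import Crest.Agent.N325.Wk.Flow
import Crest.Agent.N325.P2.Edge
import Crest.Agent.N325.P2.Dual2

/-!
# Row 325, part II (helper79): the walks of the open case
-/

set_option autoImplicit false
open Finset

namespace Crest.Agent.N325.P2

open Crest.Agent.N325.Tw Crest.Agent.N325.Ip Crest.Agent.N325.Mt Crest.Agent.N325.Bf
  Crest.Agent.N325.Op Crest.Agent.N325.Dm Crest.Agent.N325.On Crest.Agent.N325.Wk

/-- the arcs that feed the class `c` -/
def wIds (G : Gf) (d : Dt) (c : ℕ) : List ℕ :=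
  if d.mt.get (d.bs.get c) = d.bs.get c then [5 * d.bs.get c + 1]
  else (5 * d.mt.get (d.bs.get c) + 3) ::
    ((G.adj.get (d.mt.get (d.bs.get c))).filter fun e => d.pr.get (rv e)).map fun e => 5 * rv e
/-- the program of `wIds` -/
def wIdsR (G : Gf) (d : Dt) (c : ℕ) : R (List ℕ) :=
  if d.mt.get (d.bs.get c) = d.bs.get c then nat (5 * d.bs.get c + 1) >>= fun x => pure [x]
  else nat (5 * d.mt.get (d.bs.get c) + 3) >>= fun x =>
    filterP (fun e => d.pr.get (rv e)) (G.adj.get (d.mt.get (d.bs.get c))) >>= fun l =>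
    mapL (fun e => nat (5 * rv e)) l >>= fun m => pure (x :: m)
/-- the class at the tail of an arc -/
def wHd (G : Gf) (d : Dt) (e : ℕ) : Option ℕ :=
  if e % 5 = 0 then some (d.cls.get (G.tl.get (e / 5))) else none

/-- **the walks**: from the classes `z.1`, one avoids any given class of `z.2.1` -/
def wkE {T : Type} (E : Env T) (d : Dt) (z : List ℕ × List ℕ × Ip.St T) :
    R (List (List ℕ) × Ip.St T) :=
  nat (E.P.D / (2 * E.C.Ph)) >>= fun l =>
  mapL (fun c => nat ((d.cw.get c + 1) * l) >>= fun x => pure (x, c)) z.1 >>= fun st =>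
  nat (if z.2.1.isEmpty then 0 else E.C.kb + 2) >>= fun K0 =>
  walks (qry E.run E.P (wIdsR E.G d)) (wHd E.G d) (fun e => decide (e % 5 = 3))
    (fun c => d.cw.get c + 4) E.C.kb K0 E.C.ts E.C.L
    (insert ∅ (z.2.1.toFinset.image singleton)) st z.2.2 >>= fun r =>
  mapL (mapP Prod.fst) r.1 >>= fun W => pure (W, r.2)

section comb
variable {D : ℕ} {C : Cf} {G : Gf} {d : Dt} {N : Net} {c e : ℕ}

theorem mem_wIds (w : G.WF) (h : Cmb G d) (k : isC G d c) : e ∈ wIds G d c ↔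
    (d.mt.get (d.bs.get c) = d.bs.get c ∧ e = 5 * d.bs.get c + 1) ∨
    (d.st.get (d.mt.get (d.bs.get c)) = 1 ∧ (e = 5 * d.mt.get (d.bs.get c) + 3 ∨
      ∃ o < G.nd, d.pr.get o = true ∧ G.hd o = d.mt.get (d.bs.get c) ∧ e = 5 * o)) := by
  obtain ⟨b1, b2, -⟩ := h.bs_lt k
  unfold wIds
  split_ifs with q
  · rw [q, b2]; simp
  · have := (h.bs c k).2.resolve_left q
    simp only [q, this, false_and, false_or, true_and, List.mem_cons, List.mem_map,
      List.mem_filter, w.mem _ (h.mt_lt b1)]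
    refine or_congr_right ⟨?_, ?_⟩
    · rintro ⟨o, ⟨⟨a, b⟩, p⟩, rfl⟩
      exact ⟨rv o, w.rv_lt a, p, by rw [Gf.hd_rv, b], rfl⟩
    · rintro ⟨o, a, p, b, rfl⟩
      exact ⟨rv o, ⟨⟨w.rv_lt a, b⟩, by rwa [rv_rv]⟩, by rw [rv_rv]⟩

theorem nodup_wIds (w : G.WF) (h : Cmb G d) (k : isC G d c) :
    (wIds G d c).Nodup ∧ (wIds G d c).length ≤ 4 := by
  unfold wIds
  split_ifs
  · simp
  · have := (List.length_filter_le (fun e => d.pr.get (rv e)) _).trans
      (w.deg (d.mt.get (d.bs.get c)))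
    refine ⟨List.nodup_cons.2 ⟨fun q => ?_, ((w.nodup _ (h.mt_lt (h.bs_lt k).1)).filter _).map
      fun a b q => ?_⟩, by simp; omega⟩
    · obtain ⟨o, -, q⟩ := List.mem_map.1 q; omega
    · rw [← rv_rv a, ← rv_rv b, show rv a = rv b by omega]

theorem has_wIds (w : G.WF) (h : Cmb G d) (k : isC G d c) (he : e ∈ wIds G d c) : has G d e := by
  have b := (h.bs_lt k).1
  rcases (mem_wIds w h k).1 he with ⟨a, rfl⟩ | ⟨a, rfl | ⟨o, p, q, -, rfl⟩⟩
  exacts [has1.2 ⟨b, .inr a⟩, has3.2 ⟨h.mt_lt b, by omega⟩, has0.2 ⟨p, q⟩]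

/-- the arcs into an inner vertex -/
theorem Arcs.in_inn (A : Arcs D C G d N) (h : Cmb G d) {a : ℕ} (k : d.st.get a = 1) (ha : a < G.n) :
    e ∈ N.E ∧ (N.arc e).b = a + 1 ↔
      e = 5 * a + 3 ∨ ∃ o < G.nd, d.pr.get o = true ∧ G.hd o = a ∧ e = 5 * o := by
  refine ⟨fun ⟨he, q⟩ => (A.in_head h (by omega) he q).imp_right
    fun ⟨o, a, b, c, z⟩ => ⟨o, b, c, z, a⟩, ?_⟩
  rintro (rfl | ⟨o, p, q, rfl, rfl⟩)
  · have := A.ghost ha (by omega); exact ⟨this.1, by rw [this.2]; rfl⟩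
  · have := A.plain p q; exact ⟨this.1, by rw [this.2]; rfl⟩

/-- the feeding arcs carry the flow of the entry arc, that is the throughput of the class -/
theorem Arcs.thr (A : Arcs D C G d N) (w : G.WF) (h : Cmb G d) (k : isC G d c) :
    5 * d.mt.get (d.bs.get c) + 1 ∈ N.E ∧ ouf N (c + 1) = N.X (5 * d.mt.get (d.bs.get c) + 1) ∧
      ((wIds G d c).map N.X).sum = N.X (5 * d.mt.get (d.bs.get c) + 1) := by
  obtain ⟨b1, b2, b3⟩ := h.bs_lt k
  have m := (A.mem _).2 (has1.2 ⟨h.mt_lt b1, (h.bs c k).2.symm.imp_right fun q => by rw [q, q]⟩)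
  have cs : ∀ v, Op.inf N (v + 1) = ouf N (v + 1) := fun v =>
    sub_eq_zero.1 ((dv_eq N _).symm.trans (A.cons _ v.succ_ne_zero))
  refine ⟨m, ?_, ?_⟩
  · rw [← cs, Op.inf, (eq_singleton_iff_unique_mem (s := N.E.filter _)).2 ⟨mem_filter.2 ⟨m, by
      rw [A.arc _ m, arcOf1, aE, h.mt_mt b1, b3]; rfl⟩, fun e he =>
        A.in_cls h k (mem_filter.1 he).1 (mem_filter.1 he).2⟩, sum_singleton]
  rcases (h.bs c k).2 with q | q
  · simp [wIds, q]
  have ne : d.mt.get (d.bs.get c) ≠ d.bs.get c := fun z => by rw [z] at q; omega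
  rw [← List.sum_toFinset _ (nodup_wIds w h k).1, show (wIds G d c).toFinset =
      N.E.filter fun e => (N.arc e).b = d.mt.get (d.bs.get c) + 1 from by
    ext e; simp [mem_wIds w h k, A.in_inn h q (h.mt_lt b1), ne, q]]
  change Op.inf N _ = _
  rw [cs, ouf, (eq_singleton_iff_unique_mem (s := N.E.filter _)).2 ⟨mem_filter.2 ⟨m, by
      rw [A.arc _ m, arcOf1, aE, h.mt_mt b1, if_neg ne.symm]; rfl⟩, fun e he =>
        ((A.out_head h w (by omega) (mem_filter.1 he).1 (mem_filter.1 he).2).resolve_right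
          (by omega)).1⟩, sum_singleton]

theorem wHd0 (o : ℕ) : wHd G d (5 * o) = some (d.cls.get (G.tl.get o)) := by simp [wHd]
theorem wHd_ne (q : e % 5 ≠ 0) : wHd G d e = none := if_neg q

theorem Arcs.feed (A : Arcs D C G d N) (w : G.WF) (h : Cmb G d) (hB : C.B = 2 ^ C.kb)
    (p : ∀ e ∈ N.E, 0 ≤ N.X e ∧ N.X e ≤ (N.arc e).o3) :
    Feed N ((range G.n).filter (isC G d)) (wIds G d) (wHd G d) (· + 1) (5 * · + 2) C.kb := by
  refine ⟨fun e he => (p e he).1, fun v k => (nodup_wIds w h (mem_filter.1 k).2).1,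
    fun v k e he => (A.mem e).2 (has_wIds w h (mem_filter.1 k).2 he), fun v k v' k' e he he' => ?_,
    fun v k e he a q => ?_, fun a k => ?_, fun a k => ?_⟩
  · replace k := (mem_filter.1 k).2
    replace k' := (mem_filter.1 k').2
    have z : d.mt.get (d.bs.get v) = d.mt.get (d.bs.get v') := by
      rcases (mem_wIds w h k).1 he with ⟨a, rfl⟩ | ⟨a, rfl | ⟨o, -, -, b, rfl⟩⟩ <;>
        rcases (mem_wIds w h k').1 he' with ⟨a', q⟩ | ⟨a', q | ⟨o', -, -, b', q⟩⟩ <;> try omega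
      rw [← b, ← b', show o = o' by omega]
    rw [← (h.bs_lt k).2.2, ← (h.bs_lt k').2.2, ← h.mt_mt (h.bs_lt k).1, z,
      h.mt_mt (h.bs_lt k').1]
  · have m := (A.mem e).2 (has_wIds w h (mem_filter.1 k).2 he)
    rcases (mem_wIds w h (mem_filter.1 k).2).1 he with ⟨-, rfl⟩ | ⟨-, rfl | ⟨o, b, r, -, rfl⟩⟩
    · rw [wHd_ne (by omega)] at q; cases q
    · rw [wHd_ne (by omega)] at q; cases q
    rw [wHd0] at q
    cases q
    have := h.out _ (w.tl_lt o b) (h.pr o b r).1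
    exact ⟨mem_filter.2 ⟨mem_range.2 this.1, this⟩, by rw [A.arc _ m, arcOf0]; rfl, by omega⟩
  · have m := (A.mem _).2 (has2.2 (mem_filter.1 k).2)
    exact ⟨m, by rw [A.arc _ m, arcOf2]; rfl⟩
  · obtain ⟨m, a1, a2⟩ := A.thr w h (mem_filter.1 k).2
    have := (p _ m).2
    rw [A.arc _ m, arcOf1, show (aE C d _).o3 = C.B from rfl, hB] at this
    exact ⟨(a1.trans a2.symm).le, a2 ▸ by exact_mod_cast this⟩

theorem wIds_bg (w : G.WF) (h : Cmb G d) (k : isC G d c) (he : e ∈ wIds G d c)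
    (q : decide (e % 5 = 3) = false) : (wHd G d e = none → (bgOf G d).mu c = none) ∧
      ∀ a, wHd G d e = some a → (bgOf G d).St c a := by
  rcases (mem_wIds w h k).1 he with ⟨a, rfl⟩ | ⟨a, rfl | ⟨o, b, r, z, rfl⟩⟩
  · exact ⟨fun _ => if_pos a, fun _ q => by rw [wHd_ne (by omega)] at q; cases q⟩
  · exact absurd (of_decide_eq_false q) (by omega)
  rw [wHd0]
  refine ⟨fun q => (nomatch q), fun _ q => ?_⟩
  cases q
  refine ⟨_, if_neg fun y => ?_, rv o, (w.mem _ (h.mt_lt (h.bs_lt k).1) _).2 ⟨w.rv_lt b, z⟩,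
    by simp [bgOf, r], by simp [bgOf]⟩
  rw [y, (h.bs_lt k).2.1] at a; omega

theorem sp_wIdsR {g : Gl} (w : G.WF) (h : Cmb G d) (k : isC G d c) (hX : 15 * G.n + 5 ≤ g.X) :
    Sp g (wIdsR G d c) fun l t => l = wIds G d c ∧ t ≤ 16 := by
  have b := (h.bs_lt k).1
  have a := h.mt_lt b
  unfold wIdsR wIds
  split_ifs
  · rw [sp_bind, sp_nat]; exact ⟨by omega, rfl, Nat.zero_le _⟩
  rw [sp_bind, sp_nat]
  refine ⟨by omega, (sp_filterP _ _).bind ?_⟩
  rintro _ t ⟨rfl, ht⟩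
  refine (sp_mapL' (fun e => 5 * rv e) (fun _ => 0) fun e he => sp_nat.2 ⟨?_, rfl, le_rfl⟩).bind ?_
  · have := w.rv_lt ((w.mem _ a e).1 (List.mem_filter.1 he).1).1
    have := w.nd_le; omega
  rintro _ t' ⟨rfl, ht'⟩
  have := w.deg (d.mt.get (d.bs.get c))
  have := List.length_filter_le (fun e => d.pr.get (rv e)) (G.adj.get (d.mt.get (d.bs.get c)))
  exact ⟨rfl, by simp at ht' ⊢; omega⟩

theorem gf_wIds (w : G.WF) (h : Cmb G d) (k : isC G d c) (p : ∀ e ∈ N.E, 0 ≤ N.X e)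
    (m : ∀ e, e ∈ N.E ↔ has G d e) {y : ℤ} (y0 : 0 ≤ y)
    (hy : ∀ v < G.n, d.st.get v = 1 → N.X (5 * v + 3) ≤ y) :
    (gf (inN N (wIds G d)) (fun e => decide (e % 5 = 3)) c : ℤ) ≤ y := by
  rw [gf, sum_inN (fun e he => p e ((m e).2 (has_wIds w h k he)))
    fun e => decide (e % 5 = 3) = true]
  unfold wIds
  split_ifs with q
  · simpa [show (5 * d.bs.get c + 1) % 5 ≠ 3 by omega] using y0
  · have := hy _ (h.mt_lt (h.bs_lt k).1) ((h.bs c k).2.resolve_left q)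
    simpa [List.map_map, Function.comp_def] using this

end comb

theorem wk_p {Z D Ph ts kb lg : ℕ} (Z0 : (0 : ℝ) < Z) (D0 : (0 : ℝ) < D) (g2 : 64 * lg ≤ Z)
    (g3 : 128 * lg * Ph * 2 ^ kb ≤ ts * D) (b : Bool) :
    2 * (lg : ℝ) * (2 ^ kb * (8 * Ph / D) / (ts + 1) + 2 / Z) + (2 ^ kb * 0 / (ts + 1) + 0 +
      2 ^ kb * (if b then 0 else 1 : ℕ)) / 2 ^ (if b then 0 else kb + 2) ≤ 1 / 2 := by
  have e1 : 2 * (lg : ℝ) * (2 / Z) ≤ 1 / 16 := by
    have : (64 : ℝ) * lg ≤ Z := by exact_mod_cast g2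
    rw [← mul_div_assoc, div_le_iff₀ Z0]; linarith
  have e2 : 2 * (lg : ℝ) * (2 ^ kb * (8 * Ph / D) / (ts + 1)) ≤ 1 / 8 := by
    have : (128 : ℝ) * lg * Ph * 2 ^ kb ≤ ts * D := by exact_mod_cast g3
    rw [← mul_div_assoc, ← mul_div_assoc, ← mul_div_assoc, div_div, div_le_iff₀ (by positivity)]
    linarith
  have e3 : (2 : ℝ) ^ kb * (if b then 0 else 1 : ℕ) / 2 ^ (if b then 0 else kb + 2) ≤ 1 / 4 := by
    split_ifs
    · simp
    · rw [pow_add, div_le_iff₀ (by positivity)]; norm_num; linarith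
  rw [mul_add, mul_zero, zero_div, zero_add, zero_add]; linarith

theorem wk_t {K K0 b n md L r u t2 t3 t5 : ℕ} (h1 : n ≤ md) (h2 : K0 ≤ K + 2) (h3 : r ≤ L)
    (h4 : u ≤ L * b) (h5 : t2 ≤ t3 + L * (cW K K0 b n + (K0 + (b + 1) * K) + 1) + 2)
    (h6 : t5 ≤ r * (2 * b + 2) + 2 * r + 2) :
    t2 + t5 + 18 * u ≤ t3 + L * ((b + 1) * (10 * K + 27) + md) + 4 := by
  have e1 : cW K K0 b n + (K0 + (b + 1) * K) + 1 + 18 * b + (2 * b + 4) ≤
      (b + 1) * (10 * K + 27) + md := by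
    have := Nat.zero_le (b * K)
    unfold cW; linarith
  have e2 := Nat.mul_le_mul_left L e1
  have e3 := Nat.mul_le_mul_right (2 * b + 4) h3
  linarith

namespace Cx
variable {T : Type} (X : Cx T)

/-- the numeric conditions of the walks (`ts` = budget, `L` = number of the walks) -/
structure WkNum (md : ℕ) : Prop where
  lg : ∃ lg, 1 + X.G.n * X.C.B ≤ 2 ^ lg ∧ 64 * lg ≤ X.C.Z ∧
    128 * lg * X.C.Ph * X.C.B ≤ X.C.ts * X.P.D
  nw : 16 * X.C.Ph * X.C.B ≤ X.C.nu * X.P.D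
  d1 : X.g.d < 1
  d2 : (md + 1 : ℝ) * (1 / 2) ^ X.C.L ≤ X.g.d
  gX : (X.C.L + 1) * (X.C.kb + 2 + (X.C.ts + 1) * X.C.kb) ≤ X.g.X

/-- amortised time of one call -/
def wkA (md : ℕ) : ℕ := X.C.L * X.C.ts * (2 * X.k.AU) +
  (X.C.L * ((X.C.ts + 1) * (10 * X.C.kb + 27) + md) + 2 * md + 6)

variable {X} {md : ℕ}

/-- **the walks** -/
theorem wkStmt (h : X.Ok) (hn : X.WkNum md) : X.WkStmt (wkE X.toEnv) X.C.ts md (X.wkA md) := by
  rintro ⟨s0, d⟩ N iv gd hr i Y D s t hi ⟨il, a1⟩ hY nd hD hw cs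
  have hA := iv.arcs; have hc := iv.cmb; have hs := gd.2.snk
  have hg := fun v a (b : d.st.get v = 1) => iv.ghost_le h gd (v := v) a (by rw [b]; omega)
  dsimp only at *
  obtain ⟨lg, g1, g2, g3⟩ := hn.lg
  have p : ∀ e ∈ N.E, 0 ≤ N.X e ∧ N.X e ≤ (N.arc e).o3 := fun e he => by
    have := Inv.pos h il.1 he
    rw [hA.arc e he, arcOf_o1, ← hA.arc e he] at this; omega
  have F := hA.feed h.wf hc h.B.1 p
  have mV : ∀ {c}, c ∈ (range X.G.n).filter (isC X.G d) ↔ isC X.G d c :=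
    ⟨fun k => (mem_filter.1 k).2, fun k => mem_filter.2 ⟨mem_range.2 k.1, k⟩⟩
  have := h.M_le_X; have := h.BD_le; have := h.n_le_M; have hB := h.B.1; have := h.Z_pos
  have P1 : 1 ≤ X.C.Ph := le_trans (by norm_num) h.Ph
  have PD : 2 * X.C.Ph ≤ X.P.D := by
    have := h.lam_le
    have : X.C.Ph * 1 ≤ X.C.Ph * X.C.Z * X.C.lam := by
      rw [mul_assoc]; exact Nat.mul_le_mul_left _ (Nat.mul_pos (by omega) h.lam_pos)
    omega
  have hl := Nat.div_mul_le_self X.P.D (2 * X.C.Ph)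
  have hl' := Nat.lt_div_mul_add (a := X.P.D) (by omega : 0 < 2 * X.C.Ph)
  have l1 := Nat.div_pos PD (by omega)
  unfold wkE
  dsimp only
  generalize X.P.D / (2 * X.C.Ph) = l at *
  have sk : ∀ c, isC X.G d c → (d.cw.get c + 1) * l ≤ (N.X (5 * c + 2)).toNat ∧
      (d.cw.get c + 1) * X.P.D ≤ 2 * X.C.Ph * (N.X (5 * c + 2)).toNat ∧
      (N.X (5 * c + 2)).toNat ≤ X.C.M := fun c k => by
    have m := (F.ks c (mV.2 k)).1
    have q := p _ m
    have z : (d.cw.get c + 1) * X.P.D ≤ 2 * X.C.Ph * (N.X (5 * c + 2)).toNat := by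
      have := hs c k
      rw [← Int.toNat_of_nonneg q.1] at this; exact_mod_cast this
    rw [hA.arc _ m, arcOf2, show (snkA X.C c _).o3 = X.C.M from rfl] at q
    refine ⟨Nat.le_of_mul_le_mul_left (le_trans ?_ z) (by omega), z, by omega⟩
    have := Nat.mul_le_mul_left (d.cw.get c + 1) hl
    linarith
  have lY : Y.length ≤ On.wsum (wtC d) Y := by
    simpa [On.wsum] using List.sum_le_sum (l := Y) (f := fun _ => 1) (g := wtC d) fun c _ => Nat.le_add_left ..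
  rw [sp_bind, sp_nat]
  refine ⟨(Nat.le_mul_of_pos_right l (by omega)).trans (hl.trans (by omega)),
    (sp_mapL' (fun c => ((d.cw.get c + 1) * l, c)) (fun _ => 0) fun c k => by
    rw [sp_bind, sp_nat]; exact ⟨by have := sk c (hY c k); omega, rfl, le_rfl⟩).bind ?_⟩
  rintro _ t1 ⟨rfl, b1⟩
  have kb : 2 ^ (X.C.kb + 2) ≤ X.g.X := by rw [pow_add]; omega
  generalize e0 : (if D.isEmpty then 0 else X.C.kb + 2) = K0
  have K1 : K0 ≤ X.C.kb + 2 := by rw [← e0]; split_ifs <;> omega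
  have K2 : 2 ^ K0 ≤ X.g.X := (Nat.pow_le_pow_right two_pos K1).trans kb
  have tws : tw (Y.map fun c => ((d.cw.get c + 1) * l, c)) = On.wsum (wtC d) Y * l := by
    rw [tw, List.map_map]; exact List.sum_map_mul_right ..
  have nl : 4 * X.C.B ≤ X.C.nu * l := Nat.le_of_mul_le_mul_left (c := 4 * X.C.Ph) (by
    have := hn.nw
    have : 2 * X.C.Ph ≤ l * (2 * X.C.Ph) := Nat.le_mul_of_pos_left _ l1
    have := Nat.mul_le_mul_left X.C.nu (by omega : X.P.D ≤ 2 * (l * (2 * X.C.Ph)))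
    linarith) (by omega)
  have S : Start ((range X.G.n).filter (isC X.G d)) (fun a => (N.X (5 * a + 2)).toNat) K0
      (Y.map fun c => ((d.cw.get c + 1) * l, c)) := by
    refine ⟨fun y k => ?_, fun a k => le_trans ?_ (sk a (mV.1 k)).1, ?_⟩
    · obtain ⟨c, q, rfl⟩ := List.mem_map.1 k; exact mV.2 (hY c q)
    · rw [List.map_map, ← List.sum_toFinset _ nd]
      simp only [Function.comp, sum_ite_eq']
      split_ifs <;> omega
    · rw [tws]
      rcases cs with ⟨u, rfl, rfl⟩ | cs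
      · rw [← e0]; exact Nat.mul_pos lY l1
      · exact (Nat.pow_le_pow_right two_pos K1).trans (by
          rw [pow_add]; have := Nat.mul_le_mul_right l cs; omega)
  have i1 : (i : ℝ) * X.wkA md ≤ 1 * X.wkA md :=
    mul_le_mul_of_nonneg_right (by exact_mod_cast (by omega : i ≤ 1)) (Nat.cast_nonneg _)
  have Q := qry_spec h.ip (s0 := s) (W := X.C.L * X.C.ts) (w := fun c => d.cw.get c + 4) (by
      have := phi_le_Pt (X := X) (s := s)
      have : (0 : ℝ) ≤ t := by positivity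
      have : ((X.C.L * X.C.ts * (2 * X.k.AU) : ℕ) : ℝ) ≤ X.wkA md :=
        Nat.cast_le.2 (Nat.le_add_right ..)
      push_cast at this ⊢; linarith) F.mem
    (fun c k => ⟨(nodup_wIds h.wf hc (mV.1 k)).2.trans (by omega), by omega⟩)
    fun c k => sp_wIdsR h.wf hc (mV.1 k) (g := X.g) (by omega)
  have D0 : (0 : ℝ) < X.P.D := by exact_mod_cast h.D_pos
  have Z0 : (0 : ℝ) < X.C.Z := by exact_mod_cast (by omega : 0 < X.C.Z)
  have PZ : 0 < X.C.Ph * X.C.Z := Nat.mul_pos P1 (by omega)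
  rw [sp_bind, sp_nat]
  refine ⟨(Nat.lt_two_pow_self.le).trans K2, (sp_walks (F.net fun _ _ => by omega) S Q
    (κ := 8 * X.C.Ph / X.P.D) (ε := 2 / X.C.Z) (ex := fun _ => 0) (a := fun _ => 0) (Ex := 0) (A := 0)
    (p := 1 / 2) (lg := lg) (c := if D.isEmpty then 0 else 1) (by positivity) (by positivity)
    (fun _ _ => le_rfl) (fun _ _ => le_rfl) (fun c k => ?_) (fun c k => ?_) (by simp) (by simp)
    ?_ (fun J k => ?_) ?_ hn.d1 (le_trans ?_ hn.d2) (by omega) K2 (le_trans (by gcongr) hn.gX)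
    ⟨il.1, [], 0, Up.refl.mono (by simp), le_rfl⟩).bind ?_⟩
  · have : ((d.cw.get c + 1) * X.P.D : ℝ) ≤ 2 * X.C.Ph * (N.X (5 * c + 2)).toNat := by
      exact_mod_cast (sk c (mV.1 k)).2.1
    have : (0 : ℝ) ≤ d.cw.get c * X.P.D := by positivity
    rw [add_zero, div_mul_eq_mul_div, le_div_iff₀ D0]; push_cast; linarith
  · have q := gf_wIds h.wf hc (mV.1 k) F.pos hA.mem (y := (X.P.D / (X.C.Ph * X.C.Z) : ℕ))
      (by positivity) fun v a b => by
        push_cast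
        exact Int.le_ediv_of_mul_le (by exact_mod_cast PZ) (by rw [mul_comm]; exact hg v a b)
    have q' := (Nat.mul_le_mul_right _ (Int.ofNat_le.1 q)).trans
      (Nat.div_mul_le_self X.P.D (X.C.Ph * X.C.Z))
    have z := (sk c (mV.1 k)).2.1
    have := Nat.le_mul_of_pos_left X.P.D (d.cw.get c).succ_pos
    have y : _ * X.C.Z ≤ 2 * (N.X (5 * c + 2)).toNat :=
      Nat.le_of_mul_le_mul_left (c := X.C.Ph) ((mul_left_comm ..).le.trans (q'.trans (by linarith))) P1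
    rw [add_zero, div_mul_eq_mul_div, le_div_iff₀ Z0]
    exact_mod_cast y
  · have := Nat.mul_le_mul_right X.C.B ((card_filter_le (range X.G.n) (isC X.G d)).trans
      (card_range _).le)
    rw [← hB]; omega
  · rcases mem_insert.1 k with rfl | k
    · simp
    · obtain ⟨x, k, rfl⟩ := mem_image.1 k
      cases D <;> simp at k ⊢
  · rw [← e0]; exact wk_p Z0 D0 g2 (hB ▸ g3) _
  · gcongr
    exact_mod_cast (card_insert_le _ _).trans (Nat.succ_le_succ (card_image_le.trans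
      ((List.toFinset_card_le _).trans hD)))
  rintro r t2 ⟨c1, c2, c3, u, t3, c4, ⟨c5, n, t4, up, c6⟩, c7⟩
  have ln : ∀ P ∈ r.1, On.wsum (wtC d) (P.map Prod.fst) ≤ X.C.ts ∧ P.length ≤ X.C.ts := fun P k => by
    have := (c2 P k).wt
    refine ⟨le_trans ?_ this, le_trans ?_ this⟩
    · rw [On.wsum, List.map_map]; exact List.sum_le_sum fun y _ => by simp [wtC]
    · exact le_trans (by simp) (List.sum_le_sum (l := P) (f := fun _ => 1) fun _ _ =>
        Nat.succ_pos _)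
  refine (sp_mapL' (List.map Prod.fst) (fun _ => 2 * X.C.ts + 2) fun P k =>
    (sp_mapP _ _).mono fun _ _ q => ⟨q.1, by have := (ln P k).2; omega⟩).bind ?_
  rintro _ t5 ⟨rfl, b5⟩
  obtain ⟨P0, k0, -⟩ := c3 ∅ (mem_insert_self ..)
  refine ⟨⟨il.up c5 up, ?_⟩, by simpa using c1, by simpa using List.ne_nil_of_mem k0,
    fun W k => ?_, fun x k => ?_⟩
  · have := Pt_up up
    have : (u : ℝ) ≤ X.C.L * X.C.ts := by exact_mod_cast c4
    have := mul_le_mul_of_nonneg_left this (by positivity : (0 : ℝ) ≤ 2 * X.k.AU)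
    simp only [List.map_const', List.sum_replicate, smul_eq_mul, List.length_map] at b1 b5 c7
    have := wk_t (lY.trans hw) K1 c1 c4 c7 b5
    have : ((t1 + (t2 + t5) + X.C.L * X.C.ts * (2 * X.k.AU) : ℕ) : ℝ) ≤ (t4 + X.wkA md : ℕ) :=
      Nat.cast_le.2 (by unfold wkA; omega)
    push_cast at this ⊢; linarith
  · obtain ⟨P, k', rfl⟩ := List.mem_map.1 k
    obtain ⟨y, q, z⟩ := (c2 P k').pth
    obtain ⟨x, q', rfl⟩ := List.mem_map.1 q
    exact ⟨⟨x, q', z.wlk (fun v a f e b => wIds_bg h.wf hc (mV.1 a) (mem_inN.1 b).1)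
      (c2 P k').mem⟩, (ln P k').1⟩
  · obtain ⟨P, q, z⟩ := c3 {x} (mem_insert_of_mem (mem_image_of_mem _ (List.mem_toFinset.2 k)))
    refine ⟨_, List.mem_map_of_mem q, fun m => ?_⟩
    obtain ⟨y, m', rfl⟩ := List.mem_map.1 m
    exact z y m' (mem_singleton_self _)

end Cx

end Crest.Agent.N325.P2
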