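import Crest.Agent.N325.Wk.Inst
import Crest.Agent.N325.P2.Rp

/-!
# Row 325, part II (helper79): the walks are implementable
-/

set_option autoImplicit false

namespace Crest.Agent.N325.P2

open Crest.Agent.N325.Wk

theorem impl_wIdsR : Impl fun p : Gf × Dt × ℕ => wIdsR p.1 p.2.1 p.2.2 := by
  unfold wIdsR; impl

theorem impl_wQry {T : Type} [Rp T] : Impl fun p : (Env T × Dt) × ℕ × Ip.St T =>
    qry p.1.1.run p.1.1.P (wIdsR p.1.1.G p.1.2) p.2 := by
  have hi := impl_wIdsR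
  obtain ⟨k, e⟩ : ∃ k : Gf → Dt → ℕ → R (List ℕ), wIdsR = k := ⟨_, rfl⟩
  unfold qry rd1; rw [e] at hi ⊢; impl

theorem impl_wkE {T : Type} [Rp T] :
    Impl fun p : Env T × Dt × List ℕ × List ℕ × Ip.St T => wkE p.1 p.2.1 p.2.2 := by
  have hq := impl_wQry (T := T)
  obtain ⟨k, e⟩ : ∃ k : Env T × Dt → ℕ × Ip.St T → R (List (ℕ × ℕ) × Ip.St T),
    ∀ (E : Env T) d, qry E.run E.P (wIdsR E.G d) = k (E, d) :=
    ⟨fun p => qry p.1.run p.1.P (wIdsR p.1.G p.2), fun _ _ => rfl⟩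
  simp only [e] at hq
  have hw := impl_walks (β := (Env T × Dt) × (List ℕ × ℕ) × List (ℕ × ℕ) × Ip.St T)
    (q := fun p => k p.1) (hd := fun p => wHd p.1.1.G p.1.2)
    (gh := fun _ e => decide (e % 5 = 3)) (w := fun p c => p.1.2.cw.get c + 4)
    (K := fun p => p.1.1.C.kb) (K0 := fun p => p.2.1.2) (bud := fun p => p.1.1.C.ts)
    (L := fun p => p.1.1.C.L) (fun p => insert ∅ (p.2.1.1.toFinset.image singleton))
    (st := fun p => p.2.2.1) (s := fun p => p.2.2.2) (by impl) (by unfold wHd; impl) (by impl)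
    (by impl) (by impl) (by impl) (by impl) (by impl) (by impl) (by impl)
  generalize e0 : (fun a => _ : (Env T × Dt) × (List ℕ × ℕ) × List (ℕ × ℕ) × Ip.St T → _) = W at hw
  have e' : ∀ (E : Env T) d D K0 st s,
      walks (k (E, d)) (wHd E.G d) (fun e => decide (e % 5 = 3)) (fun c => d.cw.get c + 4) E.C.kb K0
        E.C.ts E.C.L (insert ∅ (D.toFinset.image singleton)) st s = W ((E, d), (D, K0), st, s) :=
    fun _ _ _ _ _ _ => e0 ▸ rfl
  unfold wkE
  simp only [e, e']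
  impl

end Crest.Agent.N325.P2
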