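import Crest.Agent.N325.M0.Mon

/-!
# Row 325 (helper79): sums over bit strings, numbers read from bits, selection by weight, blocks
-/

set_option autoImplicit false
open Finset

namespace Crest.Agent.N325.Wk

/-- sum over all bit strings of length `n` -/
noncomputable def sb (n : ℕ) (F : List Bool → ℝ) : ℝ := ∑ v : Fin n → Bool, F (List.ofFn v)

theorem sb_add (a b : ℕ) (F : List Bool → ℝ) :
    sb (a + b) F = sb a fun x => sb b fun y => F (x ++ y) := by
  unfold sb
  rw [← (Fin.appendEquiv a b).sum_comp, Fintype.sum_prod_type]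
  exact sum_congr rfl fun x _ => sum_congr rfl fun y _ => congrArg F (List.ofFn_fin_append x y)

theorem sb_zero (F : List Bool → ℝ) : sb 0 F = F [] := by simp [sb]

theorem sb_succ (n : ℕ) (F : List Bool → ℝ) :
    sb (n + 1) F = (sb n fun l => F (false :: l)) + sb n fun l => F (true :: l) := by
  rw [add_comm n 1, sb_add, sb, ← (Equiv.funUnique (Fin 1) Bool).symm.sum_comp,
    Fintype.sum_bool, add_comm]
  rfl

theorem sb_mono {n : ℕ} {F G : List Bool → ℝ} (h : ∀ l, l.length = n → F l ≤ G l) :
    sb n F ≤ sb n G := sum_le_sum fun _ _ => h _ List.length_ofFn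

theorem sb_const (n : ℕ) (c : ℝ) : (sb n fun _ => c) = 2 ^ n * c := by simp [sb]

theorem sb_add' (n : ℕ) (F G : List Bool → ℝ) : (sb n fun l => F l + G l) = sb n F + sb n G :=
  sum_add_distrib

theorem sb_mul (n : ℕ) (c : ℝ) (F : List Bool → ℝ) : (sb n fun l => c * F l) = c * sb n F :=
  (mul_sum _ _ _).symm

theorem sb_sum {ι : Type} (n : ℕ) (J : Finset ι) (F : ι → List Bool → ℝ) :
    (sb n fun l => ∑ j ∈ J, F j l) = ∑ j ∈ J, sb n (F j) := sum_comm

open Classical in
theorem bad_eq (n : ℕ) (G : List Bool → Prop) :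
    bad n G = (sb n fun l => if G l then 0 else 1) / 2 ^ n := by
  unfold bad sb
  congr 1
  rw [card_filter, Nat.cast_sum]
  exact sum_congr rfl fun v _ => by by_cases c : G (List.ofFn v) <;> simp only [c] <;> simp

/-- read `k` bits -/
def rd : ℕ → ℕ × List Bool → ℕ × List Bool
  | 0, s => s
  | k + 1, s => rd k (2 * s.1 + (s.2.headD false).toNat, s.2.tail)

theorem sb_rd (K m r : ℕ) (F : ℕ × List Bool → ℝ) : (sb (K + m) fun l => F (rd K (r, l))) =
    ∑ j ∈ range (2 ^ K), sb m fun y => F (r * 2 ^ K + j, y) := by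
  induction K generalizing r with
  | zero => simp [rd]
  | succ K ih =>
    rw [show K + 1 + m = K + m + 1 by omega, sb_succ, pow_succ, mul_two, sum_range_add]
    simp only [rd, List.headD_cons, List.tail_cons, ih, Bool.toNat_false, Bool.toNat_true]
    congr 1 <;> refine sum_congr rfl fun j _ => ?_ <;> congr <;> funext y <;> congr 2 <;> ring

theorem rd_lt (K : ℕ) (s : ℕ × List Bool) : (rd K s).1 < (s.1 + 1) * 2 ^ K := by
  induction K generalizing s with
  | zero => simp [rd]
  | succ K ih =>
    refine (ih _).trans_le ?_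
    have := Bool.toNat_le (s.2.headD false)
    rw [pow_succ, mul_comm _ 2, ← mul_assoc]
    exact Nat.mul_le_mul_right _ (by dsimp only; omega)

variable {α : Type}

/-- selection by cumulative weight -/
def pick : ℕ → List (ℕ × α) → Option α
  | _, [] => none
  | r, x :: l => if r < x.1 then some x.2 else pick (r - x.1) l

/-- total weight -/
def tw (l : List (ℕ × α)) : ℕ := (l.map Prod.fst).sum

theorem pick_mem {r : ℕ} {l : List (ℕ × α)} {x : α} (h : pick r l = some x) :
    ∃ f, 0 < f ∧ (f, x) ∈ l := by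
  induction l generalizing r with
  | nil => cases h
  | cons y l ih =>
    rw [pick] at h
    split_ifs at h with c
    · cases h; exact ⟨y.1, by omega, List.mem_cons_self⟩
    · obtain ⟨f, a, b⟩ := ih h; exact ⟨f, a, List.mem_cons_of_mem _ b⟩

theorem sum_pick_le (F : Option α → ℝ) (hF : ∀ o, 0 ≤ F o) (l : List (ℕ × α)) (Q : ℕ) :
    ∑ r ∈ range Q, F (pick r l) ≤
      (l.map fun x => (x.1 : ℝ) * F (some x.2)).sum + ((Q - tw l : ℕ) : ℝ) * F none := by
  induction l generalizing Q with
  | nil => simp [pick, tw]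
  | cons x l ih =>
    have h1 : ∑ r ∈ range Q, F (pick r (x :: l)) ≤
        ∑ r ∈ range (x.1 + (Q - x.1)), F (pick r (x :: l)) :=
      sum_le_sum_of_subset_of_nonneg (range_mono (by omega)) fun _ _ _ => hF _
    rw [sum_range_add] at h1
    have h2 : ∑ r ∈ range x.1, F (pick r (x :: l)) = x.1 * F (some x.2) := by
      rw [sum_congr rfl fun r hr => by rw [pick, if_pos (mem_range.1 hr)]]; simp
    have h3 : ∑ r ∈ range (Q - x.1), F (pick (x.1 + r) (x :: l)) =
        ∑ r ∈ range (Q - x.1), F (pick r l) :=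
      sum_congr rfl fun r _ => by rw [pick, if_neg (by omega), Nat.add_sub_cancel_left]
    have h4 := ih (Q - x.1)
    rw [List.map_cons, List.sum_cons, show Q - tw (x :: l) = Q - x.1 - tw l by
      simp only [tw, List.map_cons, List.sum_cons]; omega]
    linarith

/-- `L` blocks of `M` bits -/
def blocks (M : ℕ) : ℕ → List Bool → List (List Bool)
  | 0, _ => []
  | L + 1, l => l.take M :: blocks M L (l.drop M)

open Classical in
theorem sb_blocks {M : ℕ} {G : List Bool → Prop} {p : ℝ} (hp : 0 ≤ p)
    (h : (sb M fun l => if G l then 0 else 1) ≤ 2 ^ M * p) (L : ℕ) :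
    (sb (L * M) fun l => if ∃ b ∈ blocks M L l, G b then 0 else 1) ≤ 2 ^ (L * M) * p ^ L := by
  induction L with
  | zero => simp [sb_zero, blocks]
  | succ L ih =>
    rw [show (L + 1) * M = M + L * M by ring, sb_add]
    refine le_trans (sb_mono (G := fun x => 2 ^ (L * M) * p ^ L * if G x then 0 else 1)
      fun x hx => ?_) ?_
    · simp only [blocks, List.take_left' hx, List.drop_left' hx, List.mem_cons, exists_eq_or_imp]
      by_cases c : G x
      · simp [c, sb]
      · simpa [c] using ih
    · rw [sb_mul, pow_add, pow_succ]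
      refine (mul_le_mul_of_nonneg_left h (by positivity)).trans (le_of_eq (by ring))

open Classical in
/-- amplification with a union bound -/
theorem bad_blocks {ι : Type} (J : Finset ι) {M : ℕ} {G : ι → List Bool → Prop} {p : ℝ}
    (hp : 0 ≤ p) (h : ∀ j ∈ J, (sb M fun l => if G j l then 0 else 1) ≤ 2 ^ M * p) (L : ℕ) :
    (bad (L * M) fun l => ∀ j ∈ J, ∃ b ∈ blocks M L l, G j b) ≤ J.card * p ^ L := by
  rw [bad_eq, div_le_iff₀ (by positivity)]
  refine le_trans (sb_mono (G := fun l => ∑ j ∈ J, if ∃ b ∈ blocks M L l, G j b then 0 else 1)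
    fun l _ => ?_) ?_
  · have h0 : ∀ j ∈ J, (0 : ℝ) ≤ if ∃ b ∈ blocks M L l, G j b then 0 else 1 := fun j _ => by
      split_ifs <;> simp
    split_ifs with c
    · exact sum_nonneg h0
    · obtain ⟨j, hj, k⟩ : ∃ j ∈ J, ¬∃ b ∈ blocks M L l, G j b := by simpa using c
      exact le_trans (by rw [if_neg k]) (single_le_sum h0 hj)
  · rw [sb_sum]
    refine (sum_le_sum fun j hj => sb_blocks hp (h j hj) L).trans (le_of_eq ?_)
    rw [sum_const, nsmul_eq_mul]; ring

end Crest.Agent.N325.Wk
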