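import Crest.Agent.N325.Wk.Prog
import Crest.Agent.N325.Op.Impl
import Crest.Agent.N325.On.Defs

/-!
# Row 325 (helper79): walks on a network of the interior point layer

The items are arc ids; `ids v` lists the arcs that feed the state `v`.
-/

set_option autoImplicit false
open Finset

namespace Crest.Agent.N325.Wk

open Crest.Agent.N325.Ip Crest.Agent.N325.Tw Crest.Agent.N325.Op Crest.Agent.N325.Dm

/-- the in-lists read off a network -/
def inN (N : Ip.Net) (ids : ℕ → List ℕ) (v : ℕ) : List (ℕ × ℕ) :=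
  ((ids v).map fun e => ((N.X e).toNat, e)).reverse

/-- the arcs `ids v` feed the state `v`, `nd a` is the node, `ks a` the sink of `a` -/
structure Feed (N : Ip.Net) (V : Finset ℕ) (ids : ℕ → List ℕ) (hd : ℕ → Option ℕ) (nd ks : ℕ → ℕ)
    (K : ℕ) : Prop where
  pos : ∀ e ∈ N.E, 0 ≤ N.X e
  nodup : ∀ v ∈ V, (ids v).Nodup
  mem : ∀ v ∈ V, ∀ e ∈ ids v, e ∈ N.E
  dj : ∀ v ∈ V, ∀ v' ∈ V, ∀ e ∈ ids v, e ∈ ids v' → v = v'
  tl : ∀ v ∈ V, ∀ e ∈ ids v, ∀ a, hd e = some a → a ∈ V ∧ (N.arc e).a = nd a ∧ e ≠ ks a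
  ks : ∀ a ∈ V, ks a ∈ N.E ∧ (N.arc (ks a)).a = nd a
  thr : ∀ a ∈ V, ouf N (nd a) ≤ ((ids a).map N.X).sum ∧ ((ids a).map N.X).sum ≤ 2 ^ K

variable {N : Ip.Net} {V : Finset ℕ} {ids : ℕ → List ℕ} {hd : ℕ → Option ℕ} {nd ks : ℕ → ℕ}
  {K v : ℕ}

theorem mem_inN {y : ℕ × ℕ} : y ∈ inN N ids v ↔ y.2 ∈ ids v ∧ y.1 = (N.X y.2).toNat := by
  simp only [inN, List.mem_reverse, List.mem_map]
  exact ⟨by rintro ⟨e, a, rfl⟩; exact ⟨a, rfl⟩, fun h => ⟨y.2, h.1, Prod.ext h.2.symm rfl⟩⟩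

theorem sum_inN (h : ∀ e ∈ ids v, 0 ≤ N.X e) (p : ℕ → Prop) [DecidablePred p] :
    ((((inN N ids v).map fun y => if p y.2 then y.1 else 0).sum : ℕ) : ℤ) =
      ((ids v).map fun e => if p e then N.X e else 0).sum := by
  rw [inN, List.map_reverse, List.sum_reverse, List.map_map, Nat.cast_list_sum, List.map_map]
  refine congrArg _ (List.map_congr_left fun e he => ?_)
  have := h e he
  simp only [Function.comp]
  split_ifs <;> omega

theorem Feed.tw (h : Feed N V ids hd nd ks K) (hv : v ∈ V) :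
    (tw (inN N ids v) : ℤ) = ((ids v).map N.X).sum := by
  simpa [Wk.tw] using sum_inN (fun e he => h.pos e (h.mem v hv e he)) fun _ => True

theorem Feed.net (h : Feed N V ids hd nd ks K) {w : ℕ → ℕ} (hw : ∀ v ∈ V, 1 ≤ w v) :
    Net V (inN N ids) hd K (fun a => (N.X (ks a)).toNat) w := by
  refine ⟨fun v hv y hy a e => (h.tl v hv _ (mem_inN.1 hy).1 a e).1, fun v hv => ?_,
    fun a ha => ?_, hw⟩
  · have := (h.thr v hv).2
    rw [← h.tw hv] at this
    exact_mod_cast this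
  have e1 : ∀ v ∈ V, (out (inN N ids) hd v a : ℤ) =
      ∑ e ∈ (ids v).toFinset with hd e = some a, N.X e := fun v hv => by
    rw [out, sum_inN (fun e he => h.pos e (h.mem v hv e he)) fun e => hd e = some a, sum_filter,
      List.sum_toFinset _ (h.nodup v hv)]
  have e2 : ∑ v ∈ V, ∑ e ∈ (ids v).toFinset with hd e = some a, N.X e ≤
      ∑ e ∈ (N.E.filter fun e => (N.arc e).a = nd a).erase (ks a), N.X e := by
    rw [← sum_biUnion fun v hv v' hv' ne => disjoint_left.2 fun e a b => ne (h.dj v hv v' hv' e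
      (List.mem_toFinset.1 (mem_filter.1 a).1) (List.mem_toFinset.1 (mem_filter.1 b).1))]
    refine sum_le_sum_of_subset_of_nonneg (fun e he => ?_) fun e he _ =>
      h.pos e (mem_filter.1 (mem_of_mem_erase he)).1
    obtain ⟨v, hv, k⟩ := mem_biUnion.1 he
    obtain ⟨k1, k2⟩ := mem_filter.1 k
    rw [List.mem_toFinset] at k1
    obtain ⟨-, b, c⟩ := h.tl v hv e k1 a k2
    exact mem_erase.2 ⟨c, mem_filter.2 ⟨h.mem v hv e k1, b⟩⟩
  have e3 := sum_erase_add (N.E.filter fun e => (N.arc e).a = nd a) N.X (mem_filter.2 (h.ks a ha))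
  have e4 := (h.thr a ha).1
  have e5 := h.pos _ (h.ks a ha).1
  rw [← h.tw ha, ouf] at e4
  rw [← sum_congr rfl e1, ← Nat.cast_sum] at e2
  omega

/-! ### the query -/

section prog
variable {T : Type} (run : Cmd × T → R (T × Rep × Bool)) (P : Pm)

/-- read one arc -/
def rd1 (e : ℕ) (u : List (ℕ × ℕ) × St T) : R (List (ℕ × ℕ) × St T) :=
  get run P u.2 e >>= fun r => pure ((r.2.toNat, e) :: u.1, r.1)
/-- the in-list of a state -/
def qry (idsR : ℕ → R (List ℕ)) (z : ℕ × St T) : R (List (ℕ × ℕ) × St T) :=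
  idsR z.1 >>= fun l => foldL (rd1 run P) l ([], z.2)
end prog

variable {T : Type} {g : Gl} {run : Cmd × T → R (T × Rep × Bool)} {P : Pm} {B : Bn} {k : IC}
  {Sh : T → Prop} {I : St T → Ip.Net → Prop} {Φ : St T → ℝ}

/-- the invariant of the queries -/
def QI (k : IC) (I : St T → Ip.Net → Prop) (Φ : St T → ℝ) (s0 : St T) (N : Ip.Net) (c : ℕ)
    (s : St T) (u t : ℕ) : Prop :=
  I s N ∧ ∃ n t0, Up k Φ s0 s N N n t0 (2 * k.AU * u) ∧ t ≤ t0 + (c + 2) * u

theorem qry_spec (S : IpSpec g run P B k Sh I Φ) {idsR : ℕ → R (List ℕ)} {w : ℕ → ℕ} {W c : ℕ}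
    {s0 : St T} (hF : Φ s0 + 2 * k.AU * W ≤ B.F) (hm : ∀ v ∈ V, ∀ e ∈ ids v, e ∈ N.E)
    (hl : ∀ v ∈ V, (ids v).length ≤ w v ∧ 1 ≤ w v)
    (hi : ∀ v ∈ V, Sp g (idsR v) fun l t => l = ids v ∧ t ≤ c) :
    Qry g (qry run P idsR) V (inN N ids) w W (QI k I Φ s0 N c) := fun v hv => by
  have h0 : (0 : ℝ) ≤ k.AU := by positivity
  obtain ⟨l1, l2⟩ := hl v hv
  refine ⟨by simpa [inN] using l1, fun s u t hu ⟨i, n, t0, up, f⟩ => (hi v hv).bind ?_⟩
  rintro _ t1 ⟨rfl, ht⟩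
  have hu' : (u : ℝ) + w v ≤ W := by exact_mod_cast hu
  have l1' : ((ids v).length : ℝ) ≤ w v := by exact_mod_cast l1
  have := up.phi
  refine (sp_foldL (fun l' (z : List (ℕ × ℕ) × St T) t' => ∃ l0, ids v = l0 ++ l' ∧
      z.1 = (l0.map fun e => ((N.X e).toNat, e)).reverse ∧ I z.2 N ∧
      ∃ m t2, Up k Φ s z.2 N N m t2 (2 * k.AU * l0.length) ∧ t' ≤ t2 + l0.length)
    (fun e l' z t' ⟨l0, q, a, b, m, t2, up', d⟩ => ?_) (t := 0)
    ⟨[], rfl, rfl, i, [], 0, Up.refl.mono (by simp), le_rfl⟩).mono ?_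
  · have hq : ((ids v).length : ℝ) = l0.length + (l'.length + 1) := by rw [q]; simp
    have : (0 : ℝ) ≤ l'.length := by positivity
    have := up'.phi
    refine (sp_get S b (by nlinarith) (hm v hv e (by simp [q]))).bind
      fun r t3 ⟨a', b', n', _, c'⟩ => ⟨l0 ++ [e], by simp [q], by simp [a, b'], a', _, t2 + t3,
        (up'.trans c').mono ?_, by simp; omega⟩
    simp; linarith
  · rintro z _ ⟨t', rfl, l0, q, a, b, m, t2, up', d⟩
    rw [List.append_nil] at q; subst q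
    refine ⟨a, b, _, t0 + t2, (up.trans up').mono ?_, by nlinarith⟩
    push_cast; nlinarith

@[fun_prop] theorem impl_qry {α : Type} [Rp α] [Rp T] {run : α → Cmd × T → R (T × Rep × Bool)}
    {P : α → Pm} {idsR : α → ℕ → R (List ℕ)} {z : α → ℕ × St T}
    (hr : Impl fun p : α × Cmd × T => run p.1 p.2) (hP : Pu true P)
    (hi : Impl fun p : α × ℕ => idsR p.1 p.2) (hz : Pu true z) :
    Impl fun a => qry (run a) (P a) (idsR a) (z a) := by impl

/-- from stems to walks of the bipartite form -/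
theorem Pth.wlk {α : Type} {inl : ℕ → List (ℕ × α)} {hd : α → Option ℕ} {gh : α → Bool} {G : Bg}
    (hG : ∀ v ∈ V, ∀ f x, (f, x) ∈ inl v → gh x = false →
      (hd x = none → G.mu v = none) ∧ ∀ a, hd x = some a → G.St v a)
    {P : List (ℕ × α)} (h : Pth inl hd gh (some v) P) (hV : ∀ y ∈ P, y.1 ∈ V) :
    On.Wlk G v (P.map Prod.fst) := by
  induction P generalizing v with
  | nil => cases h
  | cons y P ih =>
    cases h with
    | @cons _ f e _ _ m n q =>
      obtain ⟨a, b⟩ := hG v (hV _ List.mem_cons_self) f e m n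
      cases c : hd e with
      | none => rw [c] at q; cases q; exact .root (a c)
      | some z =>
        rw [c] at q
        exact .cons (b z c) (ih q fun y k => hV y (List.mem_cons_of_mem _ k))

end Crest.Agent.N325.Wk
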