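import Mathlib

/-!
# Row 325 (helper79): occupation densities of the backward walk along an exact flow

`P v a` = flow from `a` into `v` (loops included), every state has throughput `Q`; `s a` is at most
the part of the throughput of `a` that goes to its sink.
-/

set_option autoImplicit false
open Finset

namespace Crest.Agent.N325.Wk

/-- expected number of visits in the first `n` steps, divided by `Q` -/
noncomputable def oc (V : Finset ℕ) (P : ℕ → ℕ → ℝ) (Q : ℝ) (μ : ℕ → ℝ) : ℕ → ℕ → ℝ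
  | 0, _ => 0
  | n + 1, a => (μ a + ∑ v ∈ V, P v a * oc V P Q μ n v) / Q

/-- the hypotheses on the chain -/
structure Ch (V : Finset ℕ) (P : ℕ → ℕ → ℝ) (Q : ℝ) (s : ℕ → ℝ) : Prop where
  pos : 0 < Q
  nn : ∀ v a, 0 ≤ P v a
  snn : ∀ a, 0 ≤ s a
  row : ∀ v ∈ V, ∑ a ∈ V, P v a ≤ Q
  col : ∀ a ∈ V, ∑ v ∈ V, P v a + s a ≤ Q

variable {V : Finset ℕ} {P : ℕ → ℕ → ℝ} {Q θ : ℝ} {s μ : ℕ → ℝ}

theorem oc_first (n a : ℕ) : oc V P Q μ (n + 1) a =
    μ a / Q + oc V P Q (fun a => ∑ v ∈ V, P v a * (μ v / Q)) n a := by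
  induction n generalizing a with
  | zero => simp [oc]
  | succ n ih =>
    rw [oc]
    simp only [ih]
    rw [oc]
    simp only [mul_add, sum_add_distrib]
    ring

theorem Ch.oc_nn (h : Ch V P Q s) (hμ : ∀ a, 0 ≤ μ a) (n a : ℕ) : 0 ≤ oc V P Q μ n a := by
  induction n generalizing a with
  | zero => exact le_rfl
  | succ n ih =>
    exact div_nonneg (add_nonneg (hμ a) (sum_nonneg fun v _ => mul_nonneg (h.nn v a) (ih v)))
      h.pos.le

theorem Ch.oc_mono (h : Ch V P Q s) (hμ : ∀ a, 0 ≤ μ a) (n a : ℕ) :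
    oc V P Q μ n a ≤ oc V P Q μ (n + 1) a := by
  induction n generalizing a with
  | zero => exact h.oc_nn hμ 1 a
  | succ n ih =>
    rw [oc, oc]
    exact div_le_div_of_nonneg_right (add_le_add_right
      (sum_le_sum fun v _ => mul_le_mul_of_nonneg_left (ih v) (h.nn v a)) _) h.pos.le

/-- the maximum principle -/
theorem Ch.oc_le (h : Ch V P Q s) (hθ : 0 ≤ θ) (hμ : ∀ a ∈ V, μ a ≤ θ * s a) (n : ℕ) :
    ∀ a ∈ V, oc V P Q μ n a ≤ θ := by
  induction n with
  | zero => exact fun _ _ => hθ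
  | succ n ih =>
    intro a ha
    rw [oc, div_le_iff₀ h.pos]
    have h1 : ∑ v ∈ V, P v a * oc V P Q μ n v ≤ (∑ v ∈ V, P v a) * θ := by
      rw [sum_mul]; exact sum_le_sum fun v hv => mul_le_mul_of_nonneg_left (ih v hv) (h.nn v a)
    have h2 := mul_le_mul_of_nonneg_left (h.col a ha) hθ
    have := hμ a ha
    nlinarith

/-- costs: first-step recursion against occupation densities -/
theorem Ch.cost_le (h : Ch V P Q s) {E : ℕ → ℕ → ℝ} {C : ℕ → ℝ} (h0 : ∀ v ∈ V, E 0 v ≤ 0)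
    (hE : ∀ n, ∀ v ∈ V, E (n + 1) v ≤ (C v + ∑ a ∈ V, P v a * E n a) / Q) (n : ℕ)
    (hμ : ∀ a, 0 ≤ μ a) : ∑ u ∈ V, μ u * E n u ≤ ∑ v ∈ V, oc V P Q μ n v * C v := by
  induction n generalizing μ with
  | zero =>
    simp only [oc, zero_mul, sum_const_zero]
    exact sum_nonpos fun u hu => mul_nonpos_of_nonneg_of_nonpos (hμ u) (h0 u hu)
  | succ n ih =>
    have h1 := ih (μ := fun a => ∑ v ∈ V, P v a * (μ v / Q)) fun a =>
      sum_nonneg fun v _ => mul_nonneg (h.nn v a) (div_nonneg (hμ v) h.pos.le)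
    simp only [oc_first, add_mul, sum_add_distrib]
    refine le_trans (sum_le_sum fun u hu => mul_le_mul_of_nonneg_left (hE n u hu) (hμ u)) ?_
    refine le_trans (le_of_eq ?_) (add_le_add_right h1 _)
    simp only [sum_mul]
    rw [sum_comm, ← sum_add_distrib]
    refine sum_congr rfl fun u _ => ?_
    rw [add_div, mul_add, sum_div, mul_sum]
    congr 1
    · ring
    · exact sum_congr rfl fun a _ => by ring

/-- the convex function of the entropy argument -/
noncomputable def ps (y : ℝ) : ℝ := (1 + y) * Real.log (1 + y) - y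

theorem ps_tan {y z : ℝ} (hy : 0 ≤ y) (hz : 0 ≤ z) :
    ps y + Real.log (1 + y) * (z - y) ≤ ps z := by
  have h1 : 0 < 1 + y := by linarith
  have h2 : 0 < 1 + z := by linarith
  have h3 := Real.one_sub_inv_le_log_of_pos (div_pos h2 h1)
  rw [Real.log_div h2.ne' h1.ne', inv_div] at h3
  have h4 := mul_le_mul_of_nonneg_left h3 h2.le
  rw [mul_sub, mul_div_cancel₀ _ h2.ne'] at h4
  unfold ps
  nlinarith

theorem ps_mono {y z : ℝ} (hy : 0 ≤ y) (h : y ≤ z) : ps y ≤ ps z := by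
  have := ps_tan hy (hy.trans h)
  have h2 : 0 ≤ Real.log (1 + y) := Real.log_nonneg (by linarith)
  nlinarith [mul_nonneg h2 (sub_nonneg.2 h)]

theorem ps_nn {y : ℝ} (hy : 0 ≤ y) : 0 ≤ ps y := by
  simpa [ps] using ps_mono le_rfl hy

/-- **the entropy bound**: the expected sum of `s / Q` along the walk is logarithmic -/
theorem Ch.sum_oc (h : Ch V P Q s) (hθ : 0 ≤ θ) (hμ0 : ∀ a, 0 ≤ μ a)
    (hμ : ∀ a ∈ V, μ a ≤ θ * s a) (h1 : ∑ a ∈ V, μ a ≤ 1) (n : ℕ) :
    ∑ a ∈ V, s a * oc V P Q μ n a ≤ 2 * Real.log (1 + V.card * Q * θ) := by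
  have hQ := h.pos
  have hL : 0 ≤ Real.log (1 + V.card * Q * θ) :=
    Real.log_nonneg (by have : 0 ≤ V.card * Q * θ := by positivity
                        linarith)
  cases n with
  | zero => simpa [oc] using hL
  | succ n =>
    rcases V.eq_empty_or_nonempty with rfl | hV
    · simp
    set S : ℝ := V.card * Q with hS
    have hS0 : 0 < S := mul_pos (Nat.cast_pos.2 hV.card_pos) hQ
    set L := Real.log (1 + S * θ)
    set Y := fun a => S * oc V P Q μ (n + 1) a with hY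
    set Z := fun a => S * oc V P Q μ n a with hZ
    have Y0 : ∀ a, 0 ≤ Y a := fun a => mul_nonneg hS0.le (h.oc_nn hμ0 _ a)
    have Z0 : ∀ a, 0 ≤ Z a := fun a => mul_nonneg hS0.le (h.oc_nn hμ0 _ a)
    have ZY : ∀ a, Z a ≤ Y a := fun a => mul_le_mul_of_nonneg_left (h.oc_mono hμ0 n a) hS0.le
    have key : ∀ a ∈ V, s a * Y a ≤
        ∑ v ∈ V, P v a * ps (Z v) - Q * ps (Y a) + (S * μ a + Q) * L := by
      intro a ha
      have l0 : 0 ≤ Real.log (1 + Y a) := Real.log_nonneg (by linarith [Y0 a])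
      have l1 : Real.log (1 + Y a) ≤ L := Real.log_le_log (by linarith [Y0 a])
        (add_le_add_right (mul_le_mul_of_nonneg_left (h.oc_le hθ hμ _ a ha) hS0.le) _)
      have e1 : Q * Y a = S * μ a + ∑ v ∈ V, P v a * Z v := by
        simp only [hY, hZ, oc]
        rw [mul_left_comm, mul_div_cancel₀ _ hQ.ne', mul_add, mul_sum]
        exact congrArg _ (sum_congr rfl fun v _ => by ring)
      have e2 : ∑ v ∈ V, P v a * (ps (Y a) + Real.log (1 + Y a) * (Z v - Y a)) ≤
          ∑ v ∈ V, P v a * ps (Z v) :=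
        sum_le_sum fun v _ => mul_le_mul_of_nonneg_left (ps_tan (Y0 a) (Z0 v)) (h.nn v a)
      have e3 : ∑ v ∈ V, P v a * (ps (Y a) + Real.log (1 + Y a) * (Z v - Y a)) =
          (∑ v ∈ V, P v a) * (ps (Y a) - Real.log (1 + Y a) * Y a) +
            Real.log (1 + Y a) * ∑ v ∈ V, P v a * Z v := by
        rw [sum_mul, mul_sum, ← sum_add_distrib]
        exact sum_congr rfl fun v _ => by ring
      have o0 : 0 ≤ ∑ v ∈ V, P v a := sum_nonneg fun v _ => h.nn v a
      have c := h.col a ha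
      have m0 := mul_nonneg hS0.le (hμ0 a)
      generalize ∑ v ∈ V, P v a = o at *
      have e4 : ps (Y a) = (1 + Y a) * Real.log (1 + Y a) - Y a := rfl
      generalize Real.log (1 + Y a) = l at *
      have e5 : (Q - o) * (Y a - l) ≤ ∑ v ∈ V, P v a * ps (Z v) - Q * ps (Y a) + S * μ a * l := by
        rw [e3, show ∑ v ∈ V, P v a * Z v = Q * Y a - S * μ a by linarith, e4] at e2
        rw [e4]; nlinarith
      nlinarith [mul_le_mul_of_nonneg_right (show s a ≤ Q - o by linarith) (Y0 a),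
        mul_le_mul_of_nonneg_left l1 m0, mul_le_mul_of_nonneg_left l1 hQ.le, mul_nonneg o0 l0]
    have k1 := sum_le_sum key
    rw [sum_add_distrib, sum_sub_distrib, sum_comm, ← sum_mul, sum_add_distrib, ← mul_sum,
      ← mul_sum, sum_const, nsmul_eq_mul, ← hS] at k1
    have k2 : ∑ v ∈ V, ∑ a ∈ V, P v a * ps (Z v) ≤ Q * ∑ a ∈ V, ps (Y a) := by
      rw [mul_sum]
      refine sum_le_sum fun v hv => ?_
      rw [← sum_mul]
      exact mul_le_mul (h.row v hv) (ps_mono (Z0 v) (ZY v)) (ps_nn (Z0 v)) hQ.le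
    have k3 : ∑ a ∈ V, s a * Y a = S * ∑ a ∈ V, s a * oc V P Q μ (n + 1) a := by
      rw [mul_sum]; exact sum_congr rfl fun a _ => by simp only [hY]; ring
    have k4 := mul_le_mul_of_nonneg_right (mul_le_mul_of_nonneg_left h1 hS0.le) hL
    refine le_of_mul_le_mul_left ?_ hS0
    nlinarith

end Crest.Agent.N325.Wk
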