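import Crest.Agent.N325.Wk.Prob

/-!
# Row 325 (helper79): traces of the backward walk, loop erasure
-/

set_option autoImplicit false
open Finset

namespace Crest.Agent.N325.Wk

variable {α : Type}

/-- **backward paths** `[(v₀,x₀),…,(v_k,x_k)]`: `xᵢ` enters `vᵢ` with positive flow, is allowed,
comes from `vᵢ₊₁`; the last item comes from a source -/
inductive Pth (inl : ℕ → List (ℕ × α)) (hd : α → Option ℕ) (gh : α → Bool) :
    Option ℕ → List (ℕ × α) → Prop
  | nil : Pth inl hd gh none []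
  | cons {v f : ℕ} {x : α} {P : List (ℕ × α)} : 0 < f → (f, x) ∈ inl v → gh x = false →
      Pth inl hd gh (hd x) P → Pth inl hd gh (some v) ((v, x) :: P)

/-- traces (latest first) from `x0` -/
inductive Tr (inl : ℕ → List (ℕ × α)) (hd : α → Option ℕ) (gh : α → Bool) (x0 : ℕ) :
    List (ℕ × α) → Option ℕ → Prop
  | nil : Tr inl hd gh x0 [] (some x0)
  | cons {v f : ℕ} {x : α} {acc : List (ℕ × α)} : 0 < f → (f, x) ∈ inl v → gh x = false →
      Tr inl hd gh x0 acc (some v) → Tr inl hd gh x0 ((v, x) :: acc) (hd x)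

/-- the weight of a path -/
def wt (w : ℕ → ℕ) (P : List (ℕ × α)) : ℕ := (P.map fun y => w y.1).sum

/-- **stems**: simple light backward paths from a state of the start list to a source -/
structure Stem (V : Finset ℕ) (inl : ℕ → List (ℕ × α)) (hd : α → Option ℕ) (gh : α → Bool)
    (w : ℕ → ℕ) (bud : ℕ) (st : List (ℕ × ℕ)) (P : List (ℕ × α)) : Prop where
  pth : ∃ y ∈ st, Pth inl hd gh (some y.2) P
  nd : (P.map Prod.fst).Nodup
  mem : ∀ y ∈ P, y.1 ∈ V
  wt : wt w P ≤ bud

/-- one step of the loop erasure -/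
def er1 (y : ℕ × α) (s : List (ℕ × α) × Arr (List (ℕ × α))) :
    List (ℕ × α) × Arr (List (ℕ × α)) :=
  if s.2.get y.1 = [] then (y :: s.1, s.2.set y.1 (y :: s.1)) else (s.2.get y.1, s.2)

variable {V : Finset ℕ} {inl inl' : ℕ → List (ℕ × α)} {hd : α → Option ℕ} {gh : α → Bool}
  {K K0 bud x0 : ℕ} {s w : ℕ → ℕ} {st : List (ℕ × ℕ)}

theorem Pth.ne {v : ℕ} {P : List (ℕ × α)} (h : Pth inl hd gh (some v) P) : P ≠ [] := by
  cases h; simp

/-- a good stored path -/
def Ok (V : Finset ℕ) (inl : ℕ → List (ℕ × α)) (hd : α → Option ℕ) (gh : α → Bool) (w : ℕ → ℕ)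
    (n : ℕ) (T : Arr (List (ℕ × α))) (c : Option ℕ) (P : List (ℕ × α)) : Prop :=
  Pth inl hd gh c P ∧ (P.map Prod.fst).Nodup ∧ (∀ y ∈ P, y.1 ∈ V ∧ T.get y.1 ≠ []) ∧ wt w P ≤ n

theorem erase {acc : List (ℕ × α)} {c : Option ℕ} (h : Tr inl hd gh x0 acc c)
    (hV : ∀ y ∈ acc, y.1 ∈ V) {n : ℕ} {z : List (ℕ × α) × Arr (List (ℕ × α))}
    (h1 : Ok V inl hd gh w n z.2 c z.1)
    (h2 : ∀ v, z.2.get v ≠ [] → Ok V inl hd gh w n z.2 (some v) (z.2.get v)) :
    ∃ T, Ok V inl hd gh w (n + wt w acc) T (some x0) (acc.foldl (fun s y => er1 y s) z).1 := by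
  induction h generalizing n z with
  | nil => exact ⟨z.2, h1⟩
  | @cons v f x acc a b c _ ih =>
    rw [List.foldl_cons, show n + wt w ((v, x) :: acc) = n + w v + wt w acc by
      simp only [wt, List.map_cons, List.sum_cons]; omega]
    have hV' : ∀ y ∈ acc, y.1 ∈ V := fun y k => hV y (List.mem_cons_of_mem _ k)
    have up : ∀ {T c P}, Ok V inl hd gh w n T c P → Ok V inl hd gh w (n + w v) T c P :=
      fun k => ⟨k.1, k.2.1, k.2.2.1, k.2.2.2.trans (Nat.le_add_right _ _)⟩
    unfold er1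
    split_ifs with e
    · have st : ∀ {c P}, Ok V inl hd gh w n z.2 c P →
          Ok V inl hd gh w (n + w v) (z.2.set v ((v, x) :: z.1)) c P := fun k =>
        ⟨k.1, k.2.1, fun y hy => ⟨(k.2.2.1 y hy).1, by
          rw [Arr.get_set]; split_ifs
          · simp
          · exact (k.2.2.1 y hy).2⟩, k.2.2.2.trans (Nat.le_add_right _ _)⟩
      have nw : Ok V inl hd gh w (n + w v) (z.2.set v ((v, x) :: z.1)) (some v) ((v, x) :: z.1) := by
        refine ⟨.cons a b c h1.1, List.nodup_cons.2 ⟨fun k => ?_, h1.2.1⟩, fun y hy => ?_, ?_⟩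
        · obtain ⟨y, hy, rfl⟩ := List.mem_map.1 k
          exact (h1.2.2.1 y hy).2 e
        · rcases List.mem_cons.1 hy with rfl | hy
          · exact ⟨hV _ List.mem_cons_self, by simp⟩
          · exact (st h1).2.2.1 y hy
        · have := h1.2.2.2
          simp only [wt, List.map_cons, List.sum_cons] at this ⊢; omega
      refine ih hV' nw fun u hu => ?_
      dsimp only at hu ⊢
      by_cases k : u = v
      · rw [k, Arr.get_set_self]; exact nw
      · rw [Arr.get_set_ne _ k] at hu ⊢; exact st (h2 u hu)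
    · exact ih hV' (up (h2 v e)) fun u hu => up (h2 u hu)

/-- the invariant of the walk -/
structure WI (V : Finset ℕ) (inl : ℕ → List (ℕ × α)) (hd : α → Option ℕ) (gh : α → Bool)
    (w : ℕ → ℕ) (bud : ℕ) (st : List (ℕ × ℕ)) (z : WS α) : Prop where
  alive : z.fl = 0 → z.v ∈ V ∧ ∃ y ∈ st, Tr inl hd gh y.2 z.acc (some z.v)
  won : z.fl = 1 → ∃ y ∈ st, Tr inl hd gh y.2 z.acc none
  mem : ∀ y ∈ z.acc, y.1 ∈ V
  wt : wt w z.acc + z.b ≤ bud
  len : z.acc.length + z.b ≤ bud

theorem mv_b (wv : ℕ) (o : Option α) (l : List Bool) (z : WS α) :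
    (mv hd gh wv o l z).b = z.b - wv := by
  unfold mv
  cases o with
  | none => rfl
  | some x => dsimp only; split_ifs; · rfl
              cases hd x <;> rfl

theorem WI.step (N : Net V inl hd K s w) {z : WS α} (h : WI V inl hd gh w bud st z) :
    WI V inl hd gh w bud st (step inl hd gh w K z) := by
  unfold Wk.step
  split_ifs with c1 c2
  · exact h
  · exact ⟨fun k => by simp at k, fun k => by simp at k, h.mem, h.wt, h.len⟩
  obtain ⟨hv, y, hy, t⟩ := h.alive (by omega)
  have h1 := h.wt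
  have h2 := h.len
  have h3 := N.wpos _ hv
  unfold mv
  cases ho : pick (rd K (0, z.l)).1 (inl z.v) with
  | none =>
    exact ⟨fun _ => ⟨hv, y, hy, t⟩, fun k => by simp at k, h.mem, by dsimp only; omega,
      by dsimp only; omega⟩
  | some x =>
    obtain ⟨f, f0, hf⟩ := pick_mem ho
    dsimp only
    split_ifs with g
    · exact ⟨fun k => by simp at k, fun k => by simp at k, h.mem, by dsimp only; omega,
        by dsimp only; omega⟩
    have t' := t.cons f0 hf (Bool.eq_false_iff.2 g)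
    have m' : ∀ y ∈ (z.v, x) :: z.acc, y.1 ∈ V := by simpa [hv] using h.mem
    have w' : Wk.wt w ((z.v, x) :: z.acc) + (z.b - w z.v) ≤ bud := by
      simp only [Wk.wt, List.map_cons, List.sum_cons] at h1 ⊢; omega
    have l' : ((z.v, x) :: z.acc).length + (z.b - w z.v) ≤ bud := by
      rw [List.length_cons]; omega
    cases hx : hd x with
    | none => rw [hx] at t'; exact ⟨fun k => by simp at k, fun _ => ⟨y, hy, t'⟩, m', w', l'⟩
    | some a =>
      rw [hx] at t'
      exact ⟨fun _ => ⟨N.cl _ hv _ hf a hx, y, hy, t'⟩, fun k => by simp at k, m', w', l'⟩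

theorem WI.iter (N : Net V inl hd K s w) {z : WS α} (h : WI V inl hd gh w bud st z) (n : ℕ) :
    WI V inl hd gh w bud st ((Wk.step inl hd gh w K)^[n] z) := by
  induction n with
  | zero => exact h
  | succ n ih => rw [Function.iterate_succ_apply']; exact ih.step N

theorem wi_ini (S : Start V s K0 st) (r : ℕ) (l : List Bool) :
    WI V inl hd gh w bud st (ini bud (pick r st) l) := by
  cases ho : pick r st with
  | none => exact ⟨fun k => by simp [ini] at k, fun k => by simp [ini] at k, by simp [ini],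
      by simp [ini, wt], by simp [ini]⟩
  | some x =>
    obtain ⟨f, -, hf⟩ := pick_mem ho
    exact ⟨fun _ => ⟨S.mem _ hf, _, hf, .nil⟩, fun k => by simp [ini] at k, by simp [ini],
      by simp [ini, wt], by simp [ini]⟩

theorem WI.stem {z : WS α} (h : WI V inl hd gh w bud st z) (k : z.fl = 1) :
    Stem V inl hd gh w bud st (z.acc.foldl (fun s y => er1 y s) ([], Arr.cst [])).1 ∧
      ∀ F, Won F z → ∀ y ∈ (z.acc.foldl (fun s y => er1 y s) ([], Arr.cst [])).1, y.1 ∉ F := by
  obtain ⟨y, hy, t⟩ := h.won k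
  obtain ⟨T, a, b, c, d⟩ := erase (V := (z.acc.map Prod.fst).toFinset) (w := w) (n := 0)
    (z := ([], Arr.cst [])) t (fun y k => List.mem_toFinset.2 (List.mem_map_of_mem k))
    ⟨.nil, List.nodup_nil, by simp, le_rfl⟩ fun v hv => absurd rfl hv
  refine ⟨⟨⟨y, hy, a⟩, b, fun y k => ?_, by have := h.wt; omega⟩, fun F f y k => ?_⟩ <;>
    obtain ⟨y', k', e⟩ := List.mem_map.1 (List.mem_toFinset.1 (c y k).1)
  · exact e ▸ h.mem y' k'
  · exact e ▸ f.2 y' k'

theorem walk_congr (N : Net V inl hd K s w) (S : Start V s K0 st)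
    (e : ∀ v ∈ V, w v ≤ bud → inl' v = inl v) (l : List Bool) :
    walk inl' hd gh w K K0 bud st l = walk inl hd gh w K K0 bud st l := by
  unfold walk
  generalize bud + 1 = n
  induction n with
  | zero => rfl
  | succ n ih =>
    rw [Function.iterate_succ_apply', Function.iterate_succ_apply', ih]
    have h := (wi_ini (inl := inl) (hd := hd) (gh := gh) (w := w) (bud := bud) S
      (rd K0 (0, l)).1 (rd K0 (0, l)).2).iter N n
    unfold step at h ⊢
    split_ifs with c1 c2
    · rfl
    · rfl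
    · rw [e _ (h.alive (by omega)).1 (by have := h.wt; omega)]

end Crest.Agent.N325.Wk
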