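import Crest.Agent.N325.Wk.Bits
import Crest.Agent.N325.Wk.Occ

/-!
# Row 325 (helper79): the backward walk and its failure probability

States are numbers; `inl v` lists the (flow, item) pairs entering `v`; `hd x` is the state at the
other end of the item (`none`: a source); `gh x`: forbidden items (ghosts, a forbidden root).
-/

set_option autoImplicit false
open Finset

namespace Crest.Agent.N325.Wk

variable {α : Type}

/-- state of a walk: position, budget, bits, trace (latest first), flag (0 alive, 1 success) -/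
structure WS (α : Type) where
  v : ℕ
  b : ℕ
  l : List Bool
  acc : List (ℕ × α)
  fl : ℕ

/-- the move after the selection -/
def mv (hd : α → Option ℕ) (gh : α → Bool) (wv : ℕ) (o : Option α) (l : List Bool) (s : WS α) :
    WS α :=
  match o with
  | none => ⟨s.v, s.b - wv, l, s.acc, 0⟩
  | some x => if gh x then ⟨s.v, s.b - wv, l, s.acc, 2⟩ else
    match hd x with
    | none => ⟨s.v, s.b - wv, l, (s.v, x) :: s.acc, 1⟩
    | some a => ⟨a, s.b - wv, l, (s.v, x) :: s.acc, 0⟩

/-- one step -/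
def step (inl : ℕ → List (ℕ × α)) (hd : α → Option ℕ) (gh : α → Bool) (w : ℕ → ℕ) (K : ℕ)
    (s : WS α) : WS α :=
  if s.fl ≠ 0 then s else if s.b < w s.v then ⟨s.v, s.b, s.l, s.acc, 2⟩ else
    mv hd gh (w s.v) (pick (rd K (0, s.l)).1 (inl s.v)) (rd K (0, s.l)).2 s

/-- the start -/
def ini (bud : ℕ) (o : Option ℕ) (l : List Bool) : WS α :=
  match o with
  | none => ⟨0, bud, l, [], 2⟩
  | some x => ⟨x, bud, l, [], 0⟩

/-- a whole walk -/
def walk (inl : ℕ → List (ℕ × α)) (hd : α → Option ℕ) (gh : α → Bool) (w : ℕ → ℕ)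
    (K K0 bud : ℕ) (st : List (ℕ × ℕ)) (l : List Bool) : WS α :=
  (step inl hd gh w K)^[bud + 1] (ini bud (pick (rd K0 (0, l)).1 st) (rd K0 (0, l)).2)

/-- the flow from `a` into `v` -/
def out (inl : ℕ → List (ℕ × α)) (hd : α → Option ℕ) (v a : ℕ) : ℕ :=
  ((inl v).map fun y => if hd y.2 = some a then y.1 else 0).sum

/-- the forbidden flow into `v` -/
def gf (inl : ℕ → List (ℕ × α)) (gh : α → Bool) (v : ℕ) : ℕ :=
  ((inl v).map fun y => if gh y.2 then y.1 else 0).sum

/-- **the network**: closed, throughput at most `2 ^ K`, conservation with sinks `s` -/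
structure Net (V : Finset ℕ) (inl : ℕ → List (ℕ × α)) (hd : α → Option ℕ) (K : ℕ) (s w : ℕ → ℕ) :
    Prop where
  cl : ∀ v ∈ V, ∀ y ∈ inl v, ∀ a, hd y.2 = some a → a ∈ V
  cap : ∀ v ∈ V, tw (inl v) ≤ 2 ^ K
  cons : ∀ a ∈ V, ∑ v ∈ V, out inl hd v a + s a ≤ tw (inl a)
  wpos : ∀ v ∈ V, 1 ≤ w v

/-- **the start list**: entries `(amount, state)` -/
structure Start (V : Finset ℕ) (s : ℕ → ℕ) (K0 : ℕ) (st : List (ℕ × ℕ)) : Prop where
  mem : ∀ y ∈ st, y.2 ∈ V
  le : ∀ a ∈ V, (st.map fun y => if y.2 = a then y.1 else 0).sum ≤ s a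
  tot : 2 ^ K0 ≤ tw st

/-- the next state of the unbudgeted chain -/
def nx (inl : ℕ → List (ℕ × α)) (hd : α → Option ℕ) (v r : ℕ) : Option ℕ :=
  (pick r (inl v)).elim (some v) hd

/-- the accumulated cost -/
noncomputable def tot (f : ℕ → ℕ → Option ℕ) (c : ℕ → ℕ → ℝ) (K : ℕ) : ℕ → ℕ → List Bool → ℝ
  | 0, _, _ => 0
  | n + 1, v, l => c v (rd K (0, l)).1 +
      (f v (rd K (0, l)).1).elim 0 fun a => tot f c K n a (rd K (0, l)).2

theorem tot_nn {f : ℕ → ℕ → Option ℕ} {c : ℕ → ℕ → ℝ} (hc : ∀ v r, 0 ≤ c v r) (K n v : ℕ)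
    (l : List Bool) : 0 ≤ tot f c K n v l := by
  induction n generalizing v l with
  | zero => exact le_rfl
  | succ n ih =>
    refine add_nonneg (hc _ _) ?_
    cases f v (rd K (0, l)).1 with
    | none => exact le_rfl
    | some a => exact ih _ _

variable {V : Finset ℕ} {inl : ℕ → List (ℕ × α)} {hd : α → Option ℕ} {gh : α → Bool}
  {K K0 bud : ℕ} {s w : ℕ → ℕ} {st : List (ℕ × ℕ)} {F : Finset ℕ}

/-- the cost of a step -/
noncomputable def cst (inl : ℕ → List (ℕ × α)) (gh : α → Bool) (w : ℕ → ℕ) (F : Finset ℕ)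
    (bud v r : ℕ) : ℝ :=
  (if v ∈ F then 1 else 0) +
    (w v / (bud + 1) + (pick r (inl v)).elim 0 fun x => if gh x then 1 else 0)

/-- success, avoiding the states in `F` -/
def Won (F : Finset ℕ) (z : WS α) : Prop := z.fl = 1 ∧ ∀ y ∈ z.acc, y.1 ∉ F

theorem ind_nn (o : Option α) : (0 : ℝ) ≤ o.elim 0 fun x => if gh x then 1 else 0 := by
  cases o with
  | none => exact le_rfl
  | some x => dsimp only [Option.elim]; split_ifs <;> simp

theorem cst_nn (v r : ℕ) : 0 ≤ cst inl gh w F bud v r :=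
  add_nonneg (by split_ifs <;> simp) (add_nonneg (by positivity) (ind_nn _))

theorem iter_done {z : WS α} (h : z.fl ≠ 0) (n : ℕ) : (step inl hd gh w K)^[n] z = z :=
  Function.iterate_fixed (by rw [step, if_pos h]) n

theorem Net.fail (N : Net V inl hd K s w) (n : ℕ) (z : WS α) (h0 : z.fl = 0) (hv : z.v ∈ V)
    (hb : z.b ≤ bud) (hn : z.b < n) (hF : ∀ y ∈ z.acc, y.1 ∉ F)
    (h : ¬Won F ((step inl hd gh w K)^[n] z)) :
    ((z.b : ℝ) + 1) / (bud + 1) ≤ tot (nx inl hd) (cst inl gh w F bud) K n z.v z.l := by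
  induction n generalizing z with
  | zero => omega
  | succ n ih =>
    have hw := N.wpos _ hv
    have hB : (0 : ℝ) < bud + 1 := by positivity
    have t0 : (0 : ℝ) ≤ (nx inl hd z.v (rd K (0, z.l)).1).elim 0 fun a =>
        tot (nx inl hd) (cst inl gh w F bud) K n a (rd K (0, z.l)).2 := by
      cases nx inl hd z.v (rd K (0, z.l)).1 with
      | none => exact le_rfl
      | some a => exact tot_nn cst_nn _ _ _ _
    rw [Function.iterate_succ_apply, step, if_neg (by omega)] at h
    have b1 : ((z.b : ℝ) + 1) / (bud + 1) ≤ 1 := by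
      rw [div_le_one hB]; exact_mod_cast Nat.succ_le_succ hb
    rw [tot, cst]
    by_cases f : z.v ∈ F
    · rw [if_pos f]
      exact le_add_of_le_of_nonneg (le_add_of_le_of_nonneg b1
        (add_nonneg (by positivity) (ind_nn _))) t0
    rw [if_neg f, zero_add]
    have hF' : ∀ x, ∀ y ∈ (z.v, x) :: z.acc, y.1 ∉ F := fun x => by simpa [f] using hF
    by_cases c : z.b < w z.v
    · refine le_add_of_le_of_nonneg (le_add_of_le_of_nonneg ?_ (ind_nn _)) t0
      exact div_le_div_of_nonneg_right (by exact_mod_cast c) hB.le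
    rw [if_neg c] at h
    have e : ((z.b : ℝ) + 1) / (bud + 1) =
        w z.v / (bud + 1) + 0 + (((z.b - w z.v : ℕ) : ℝ) + 1) / (bud + 1) := by
      rw [Nat.cast_sub (by omega)]; ring
    rw [nx] at *
    cases ho : pick (rd K (0, z.l)).1 (inl z.v) with
    | none =>
      rw [ho] at h
      rw [e]
      exact add_le_add_right (ih ⟨z.v, z.b - w z.v, (rd K (0, z.l)).2, z.acc, 0⟩ rfl hv
        (by dsimp only; omega) (by dsimp only; omega) hF h) _
    | some x =>
      rw [ho] at h t0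
      dsimp only [Option.elim, mv] at h t0 ⊢
      by_cases g : gh x = true
      · rw [if_pos g]
        exact le_add_of_le_of_nonneg (le_add_of_nonneg_of_le (by positivity) b1) t0
      rw [if_neg g] at h ⊢
      cases hx : hd x with
      | none => rw [hx, iter_done (by simp)] at h; exact absurd ⟨rfl, hF' x⟩ h
      | some a =>
        rw [hx] at h
        obtain ⟨f, -, hf⟩ := pick_mem ho
        rw [e]
        exact add_le_add_right (ih _ rfl (N.cl _ hv _ hf a hx) (by dsimp only; omega)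
          (by dsimp only; omega) (hF' x) h) _

/-- the transition counts -/
noncomputable def tr (f : ℕ → Option ℕ) (K a : ℕ) : ℝ :=
  ∑ r ∈ range (2 ^ K), if f r = some a then 1 else 0

theorem tr_nn (f : ℕ → Option ℕ) (K a : ℕ) : 0 ≤ tr f K a :=
  sum_nonneg fun _ _ => by split_ifs <;> simp

theorem sum_tr (f : ℕ → Option ℕ) (hf : ∀ r < 2 ^ K, ∀ a, f r = some a → a ∈ V) (E : ℕ → ℝ) :
    ∑ a ∈ V, tr f K a * E a = ∑ r ∈ range (2 ^ K), (f r).elim 0 E := by
  simp only [tr, sum_mul]
  rw [sum_comm]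
  refine sum_congr rfl fun r hr => ?_
  cases e : f r with
  | none => simp
  | some b => simp [hf r (mem_range.1 hr) b e]

theorem sum_tr_le (f : ℕ → Option ℕ) : ∑ a ∈ V, tr f K a ≤ 2 ^ K := by
  simp only [tr]
  rw [sum_comm]
  refine (sum_le_sum (g := fun _ => (1 : ℝ)) fun r _ => ?_).trans (by simp)
  cases f r with
  | none => simp
  | some b => simp only [Option.some.injEq, sum_ite_eq]; split_ifs <;> simp

theorem cast_ite_sum {β : Type} (l : List (ℕ × β)) (p : β → Prop) [DecidablePred p] :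
    (l.map fun x => (x.1 : ℝ) * if p x.2 then 1 else 0).sum =
      ((l.map fun y => if p y.2 then y.1 else 0).sum : ℕ) := by
  rw [Nat.cast_list_sum, List.map_map]
  exact congrArg _ (List.map_congr_left fun x _ => by simp)

theorem Net.nx_mem (N : Net V inl hd K s w) {v : ℕ} (hv : v ∈ V) (r a : ℕ)
    (h : nx inl hd v r = some a) : a ∈ V := by
  unfold nx at h
  cases ho : pick r (inl v) with
  | none => rw [ho] at h; cases h; exact hv
  | some x => rw [ho] at h; obtain ⟨f, -, hf⟩ := pick_mem ho; exact N.cl _ hv _ hf a h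

theorem Net.ch (N : Net V inl hd K s w) :
    Ch V (fun v => tr (nx inl hd v) K) (2 ^ K) fun a => s a := by
  refine ⟨by positivity, fun v a => tr_nn _ _ _, fun a => by positivity, fun v _ => sum_tr_le _,
    fun a ha => ?_⟩
  have h1 : ∀ v ∈ V, tr (nx inl hd v) K a ≤ out inl hd v a +
      if v = a then ((2 ^ K - tw (inl a) : ℕ) : ℝ) else 0 := fun v _ => by
    refine (sum_pick_le (fun o => if o.elim (some v) hd = some a then 1 else 0)
      (fun o => by split_ifs <;> simp) (inl v) (2 ^ K)).trans (le_of_eq ?_)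
    rw [show (fun x : ℕ × α => (x.1 : ℝ) * if (some x.2).elim (some v) hd = some a then 1 else 0) =
      fun x => (x.1 : ℝ) * if hd x.2 = some a then 1 else 0 from rfl,
      cast_ite_sum (inl v) fun x => hd x = some a, out]
    by_cases c : v = a <;> simp [c]
  have h2 := sum_le_sum h1
  rw [sum_add_distrib, sum_ite_eq', if_pos ha, Nat.cast_sub (N.cap a ha)] at h2
  have h3 : ((∑ v ∈ V, out inl hd v a + s a : ℕ) : ℝ) ≤ tw (inl a) := by exact_mod_cast N.cons a ha
  push_cast at h2 h3
  linarith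

theorem pick_ne_none {β : Type} {r : ℕ} {l : List (ℕ × β)} (h : r < tw l) : pick r l ≠ none := by
  induction l generalizing r with
  | nil => simp [tw] at h
  | cons x l ih =>
    rw [pick]
    split_ifs with c
    · simp
    · exact ih (by simp only [tw, List.map_cons, List.sum_cons] at h ⊢; omega)

open Classical in
/-- **one walk fails with probability at most `p`** -/
theorem Net.walk_fail (N : Net V inl hd K s w) (S : Start V s K0 st) {κ ε Ex A p : ℝ}
    {ex a : ℕ → ℝ} {lg : ℕ} (hκ : 0 ≤ κ) (hε : 0 ≤ ε) (hex0 : ∀ v ∈ V, 0 ≤ ex v)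
    (ha0 : ∀ v ∈ V, 0 ≤ a v) (hw : ∀ v ∈ V, (w v : ℝ) ≤ κ * s v + ex v)
    (hg : ∀ v ∈ V, (gf inl gh v : ℝ) ≤ ε * s v + a v) (hex : ∑ v ∈ V, ex v ≤ Ex)
    (ha : ∑ v ∈ V, a v ≤ A) (hlg : 1 + V.card * 2 ^ K ≤ 2 ^ lg)
    (hp : 2 * lg * (2 ^ K * κ / (bud + 1) + ε) +
      (2 ^ K * Ex / (bud + 1) + A + 2 ^ K * F.card) / 2 ^ K0 ≤ p) :
    (sb (K0 + (bud + 1) * K) fun l => if Won F (walk inl hd gh w K K0 bud st l) then 0 else 1) ≤
      2 ^ (K0 + (bud + 1) * K) * p := by
  set c := cst inl gh w F bud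
  set E : ℕ → ℕ → ℝ := fun n v => sb (n * K) (tot (nx inl hd) c K n v) / 2 ^ (n * K) with hE
  set μ : ℕ → ℝ := fun x => tr (fun r => pick r st) K0 x / 2 ^ K0 with hμ
  have μ0 : ∀ x, 0 ≤ μ x := fun x => div_nonneg (tr_nn _ _ _) (by positivity)
  have μ1 : ∀ x ∈ V, μ x ≤ 1 / 2 ^ K0 * s x := fun x hx => by
    rw [one_div_mul_eq_div]
    refine div_le_div_of_nonneg_right ((sum_pick_le (fun o => if o = some x then 1 else 0)
      (fun o => by split_ifs <;> simp) st (2 ^ K0)).trans ?_) (by positivity)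
    simp only [Option.some.injEq, reduceCtorEq, if_false, mul_zero, add_zero]
    rw [cast_ite_sum st fun y => y = x]
    exact_mod_cast S.le x hx
  have μ2 : ∑ x ∈ V, μ x ≤ 1 := by
    rw [← sum_div, div_le_one (by positivity)]; exact sum_tr_le _
  have h1 := N.ch.cost_le (E := E) (C := fun v => ∑ r ∈ range (2 ^ K), c v r)
    (fun v _ => by simp [hE, sb_zero, tot]) (fun n v hv => le_of_eq ?_) (bud + 1) μ0
  swap
  · rw [sum_tr _ fun r _ b => N.nx_mem hv r b, ← sum_add_distrib]
    simp only [hE]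
    rw [show (n + 1) * K = K + n * K by ring]
    rw [show sb (K + n * K) (tot (nx inl hd) c K (n + 1) v) = _ from
      sb_rd K (n * K) 0 fun z : ℕ × List Bool => c v z.1 +
        (nx inl hd v z.1).elim 0 fun a => tot (nx inl hd) c K n a z.2,
      pow_add, mul_comm ((2 : ℝ) ^ K), ← div_div, sum_div]
    congr 1
    refine sum_congr rfl fun r _ => ?_
    simp only [zero_mul, zero_add]
    rw [sb_add', sb_const, add_div, mul_div_cancel_left₀ _ (by positivity)]
    congr 1
    cases nx inl hd v r with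
    | none => simp [sb]
    | some b => rfl
  have h2 := N.ch.sum_oc (by positivity) μ0 μ1 μ2 (bud + 1)
  have h3 := N.ch.oc_le (by positivity) μ1 (bud + 1)
  have h4 := N.ch.oc_nn μ0 (bud + 1)
  generalize oc V (fun v => tr (nx inl hd v) K) (2 ^ K) μ (bud + 1) = H at h1 h2 h3 h4
  have hB : (0 : ℝ) < bud + 1 := by positivity
  have h5 : ∀ v ∈ V, H v * ∑ r ∈ range (2 ^ K), c v r ≤
      (2 ^ K * κ / (bud + 1) + ε) * (s v * H v) +
        (2 ^ K / (bud + 1) * ex v + a v + 2 ^ K * if v ∈ F then 1 else 0) * (1 / 2 ^ K0) :=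
      fun v hv => by
    have k1 := sum_pick_le (fun o => o.elim 0 fun x => if gh x then (1 : ℝ) else 0) ind_nn (inl v)
      (2 ^ K)
    simp only [Option.elim, mul_zero, add_zero] at k1
    rw [cast_ite_sum (inl v) fun x => gh x = true] at k1
    have k2 : ∑ r ∈ range (2 ^ K), c v r ≤ (2 ^ K * if v ∈ F then 1 else 0) +
        (2 ^ K / (bud + 1) * (κ * s v + ex v) + (ε * s v + a v)) := by
      simp only [c, cst, sum_add_distrib, sum_const, card_range, nsmul_eq_mul]
      push_cast
      refine add_le_add_right (add_le_add ?_ (k1.trans (hg v hv))) _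
      rw [div_mul_eq_mul_div, mul_div_assoc]
      have := hw v hv
      gcongr
    refine (mul_le_mul_of_nonneg_left k2 (h4 v)).trans ?_
    have k3 : 0 ≤ 2 ^ K / ((bud : ℝ) + 1) * ex v + a v + 2 ^ K * if v ∈ F then 1 else 0 :=
      add_nonneg (add_nonneg (mul_nonneg (by positivity) (hex0 v hv)) (ha0 v hv))
        (by split_ifs <;> simp)
    have := mul_le_mul_of_nonneg_left (h3 v hv) k3
    refine le_trans (le_of_eq ?_) (add_le_add_right this _)
    ring
  have h6 := h1.trans (sum_le_sum h5)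
  rw [sum_add_distrib, ← mul_sum, ← sum_mul, sum_add_distrib, sum_add_distrib, ← mul_sum,
    ← mul_sum] at h6
  have hF : ∑ v ∈ V, (if v ∈ F then (1 : ℝ) else 0) ≤ F.card := by
    rw [sum_boole, filter_mem_eq_inter]; exact_mod_cast card_le_card inter_subset_right
  have h7 : Real.log (1 + V.card * 2 ^ K * (1 / 2 ^ K0)) ≤ lg := by
    have k1 : (1 : ℝ) / 2 ^ K0 ≤ 1 := by rw [div_le_one (by positivity)]; exact one_le_pow₀ one_le_two
    have k2 : (1 : ℝ) + V.card * 2 ^ K ≤ 2 ^ lg := by exact_mod_cast hlg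
    refine (Real.log_le_log (y := 2 ^ lg) (by positivity) ?_).trans ?_
    · nlinarith [mul_le_mul_of_nonneg_left k1 (show (0 : ℝ) ≤ V.card * 2 ^ K by positivity)]
    · rw [Real.log_pow]
      nlinarith [Real.log_two_lt_d9, (Nat.cast_nonneg lg : (0 : ℝ) ≤ lg)]
  have h8 : ∑ u ∈ V, μ u * E (bud + 1) u ≤ p := by
    refine h6.trans (le_trans (add_le_add ?_ ?_) hp)
    · rw [mul_comm (2 * (lg : ℝ))]
      exact mul_le_mul_of_nonneg_left (by linarith) (by positivity)
    · rw [mul_one_div, ← div_mul_eq_mul_div]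
      gcongr
  refine (sb_rd K0 ((bud + 1) * K) 0 fun z : ℕ × List Bool =>
    if Won F ((step inl hd gh w K)^[bud + 1] (ini bud (pick z.1 st) z.2))
      then (0 : ℝ) else 1).trans_le ?_
  have h9 : ∑ u ∈ V, μ u * E (bud + 1) u = (∑ r ∈ range (2 ^ K0), (pick r st).elim 0 fun u =>
      sb ((bud + 1) * K) (tot (nx inl hd) c K (bud + 1) u)) / 2 ^ (K0 + (bud + 1) * K) := by
    rw [← sum_tr (V := V) _ fun r _ b e => by
      obtain ⟨f, -, hf⟩ := pick_mem e; exact S.mem _ hf, sum_div]
    exact sum_congr rfl fun u _ => by simp only [hμ, hE]; rw [pow_add, div_mul_div_comm]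
  rw [h9, div_le_iff₀' (by positivity)] at h8
  refine le_trans (sum_le_sum fun r hr => ?_) h8
  simp only [zero_mul, zero_add]
  cases ho : pick r st with
  | none => exact absurd ho (pick_ne_none ((mem_range.1 hr).trans_le S.tot))
  | some x =>
    obtain ⟨f, -, hf⟩ := pick_mem ho
    refine sb_mono fun l _ => ?_
    split_ifs with k
    · exact tot_nn cst_nn _ _ _ _
    · have := N.fail (bud := bud) (bud + 1) (ini bud (some x) l) rfl (S.mem _ hf) le_rfl
        (Nat.lt_succ_self _) (by simp [ini]) k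
      rwa [show (ini bud (some x) l : WS α).b = bud from rfl, div_self hB.ne'] at this

end Crest.Agent.N325.Wk
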