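import Crest.Agent.N325.Wk.Path
import Crest.Agent.N325.M0.Prob
import Crest.Agent.N325.Lst.ListImpl

/-!
# Row 325 (helper79): the program of the backward walks

`walks q hd gh w K K0 bud L J st σ` runs `L` walks on one sample and returns the loop-erased
successful ones; `q` is the exact query of the in-list of a state (state passing), `J` is ghost.
-/

set_option autoImplicit false
open Finset

namespace Crest.Agent.N325.Wk

variable {α σ β : Type} {g : Gl}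

/-- read `K` bits -/
def rdR (K : ℕ) (l : List Bool) : R (ℕ × List Bool) :=
  forN (fun _ s => nat (2 * s.1 + (s.2.headD false).toNat) >>= fun r => pure (r, s.2.tail)) K 0 (0, l)

theorem sp_rdR {K : ℕ} (h : 2 ^ K ≤ g.X) (l : List Bool) :
    Sp g (rdR K l) fun r t => r = rd K (0, l) ∧ t ≤ K + 1 := by
  refine (sp_forN' (fun j (s : ℕ × List Bool) => rd (K - j) s = rd K (0, l) ∧ s.1 < 2 ^ j) 0
    (fun j s _ hj k => ?_) ⟨rfl, Nat.one_pos⟩).mono fun r t k =>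
      ⟨by simpa [rd] using k.1.1, by simpa using k.2⟩
  have := Bool.toNat_le (s.2.headD false)
  have e : 2 ^ (j + 1) ≤ 2 ^ K := Nat.pow_le_pow_right two_pos (by omega)
  rw [sp_bind, sp_nat, sp_pure]
  refine ⟨by have := k.2; omega, ⟨?_, by have := k.2; dsimp only; omega⟩, le_rfl⟩
  rw [← k.1, show K - j = K - (j + 1) + 1 by omega]; rfl

/-- one step of the selection -/
def pk1 (x : ℕ × α) (s : ℕ × Option α) : ℕ × Option α :=
  if s.2.isSome then s else if s.1 < x.1 then (s.1, some x.2) else (s.1 - x.1, none)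

theorem foldl_pk1 (l : List (ℕ × α)) (r : ℕ) (o : Option α) :
    (l.foldl (fun s x => pk1 x s) (r, o)).2 = o.elim (pick r l) some := by
  induction l generalizing r o with
  | nil => cases o <;> rfl
  | cons x l ih =>
    rw [List.foldl_cons, pk1]
    cases o with
    | some y => exact ih _ _
    | none =>
      rw [if_neg (by simp), pick]
      split_ifs <;> exact ih _ _

/-- selection -/
def pickR (r : ℕ) (l : List (ℕ × α)) : R (Option α) := foldP pk1 l (r, none) >>= fun s => pure s.2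

theorem sp_pickR (r : ℕ) (l : List (ℕ × α)) :
    Sp g (pickR r l) fun o t => o = pick r l ∧ t = l.length + 1 :=
  (sp_foldP _ l _).bind fun s t h => ⟨by rw [h.1, foldl_pk1]; rfl, h.2⟩

/-- one step of a walk -/
def stepR (q : ℕ × σ → R (List (ℕ × α) × σ)) (hd : α → Option ℕ) (gh : α → Bool) (w : ℕ → ℕ)
    (K : ℕ) (z : WS α × σ) : R (WS α × σ) :=
  if z.1.fl ≠ 0 then pure z else
  if z.1.b < w z.1.v then pure (⟨z.1.v, z.1.b, z.1.l, z.1.acc, 2⟩, z.2) else do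
    let r ← rdR K z.1.l
    let i ← q (z.1.v, z.2)
    let o ← pickR r.1 i.1
    pure (mv hd gh (w z.1.v) o r.2 z.1, i.2)

/-- one walk, appended to the output when it succeeds -/
def walkR (q : ℕ × σ → R (List (ℕ × α) × σ)) (hd : α → Option ℕ) (gh : α → Bool) (w : ℕ → ℕ)
    (K K0 bud M : ℕ) (st : List (ℕ × ℕ)) (s : List Bool × List (List (ℕ × α)) × σ) :
    R (List Bool × List (List (ℕ × α)) × σ) := do
  let b ← splitL M s.1
  let r ← rdR K0 b.1
  let o ← pickR r.1 st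
  let z ← forN (fun _ => stepR q hd gh w K) (bud + 1) 0 (ini bud o r.2, s.2.2)
  if z.1.fl = 1 then
    foldP er1 z.1.acc ([], Arr.cst []) >>= fun e => pure (b.2, e.1 :: s.2.1, z.2)
  else pure (b.2, s.2.1, z.2)

/-- the value of a deterministic observation of a computation (ghost) -/
noncomputable def det {γ δ : Type} [Nonempty δ] (m : R γ) (f : γ → δ) : δ :=
  Classical.epsilon fun c => ∃ g : Gl, g.d < 1 ∧ Sp g m fun r _ => f r = c

theorem det_eq {γ δ : Type} [Nonempty δ] {m : R γ} {f : γ → δ} {c : δ} (hd : g.d < 1)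
    (h : Sp g m fun r _ => f r = c) : det m f = c := by
  obtain ⟨g', d', h'⟩ := Classical.epsilon_spec
    (p := fun c => ∃ g : Gl, g.d < 1 ∧ Sp g m fun r _ => f r = c) ⟨c, g, hd, h⟩
  obtain ⟨a, -, e1, e2⟩ := ((h.gl (g' := ⟨max g.X g'.X, max g.d g'.d⟩) (le_max_left _ _)
    (le_max_left _ _)).and (h'.gl (le_max_right _ _) (le_max_right _ _))).exists (max_lt hd d')
  exact e2.symm.trans e1

/-- **`L` walks** -/
def walks (q : ℕ × σ → R (List (ℕ × α) × σ)) (hd : α → Option ℕ) (gh : α → Bool) (w : ℕ → ℕ)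
    (K K0 bud L : ℕ) (J : Finset (Finset ℕ)) (st : List (ℕ × ℕ)) (s : σ) :
    R (List (List (ℕ × α)) × σ) := do
  let M ← nat (K0 + (bud + 1) * K)
  let n ← nat (L * M)
  let l ← smp n fun l => ∀ F ∈ J, ∃ b ∈ blocks M L l,
    Won F (walk (fun v => det (q (v, s)) Prod.fst) hd gh w K K0 bud st b)
  let r ← forN (fun _ => walkR q hd gh w K K0 bud M st) L 0 (l, [], s)
  pure r.2

/-- the query: `I σ u t` = invariant after queries of weight `u` and time `t` -/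
def Qry (g : Gl) (q : ℕ × σ → R (List (ℕ × α) × σ)) (V : Finset ℕ) (inl : ℕ → List (ℕ × α))
    (w : ℕ → ℕ) (W : ℕ) (I : σ → ℕ → ℕ → Prop) : Prop :=
  ∀ v ∈ V, (inl v).length ≤ w v ∧ ∀ s u t, u + w v ≤ W → I s u t →
    Sp g (q (v, s)) fun r t' => r.1 = inl v ∧ I r.2 (u + w v) (t + t')

variable {q : ℕ × σ → R (List (ℕ × α) × σ)} {V : Finset ℕ} {inl : ℕ → List (ℕ × α)}
  {hd : α → Option ℕ} {gh : α → Bool} {K K0 bud W L : ℕ} {sk w : ℕ → ℕ} {st : List (ℕ × ℕ)}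
  {I : σ → ℕ → ℕ → Prop}

theorem sp_stepR (Q : Qry g q V inl w W I) (hK : 2 ^ K ≤ g.X) {z : WS α} {s : σ} {u t : ℕ}
    (h : WI V inl hd gh w bud st z) (hu : u + z.b ≤ W) (i : I s u t) :
    Sp g (stepR q hd gh w K (z, s)) fun r t' => r.1 = step inl hd gh w K z ∧ r.1.b ≤ z.b ∧
      ∃ t1, I r.2 (u + (z.b - r.1.b)) (t + t1) ∧ t' ≤ t1 + (z.b - r.1.b) + (K + 2) := by
  unfold stepR step
  dsimp only
  split_ifs with c1 c2
  · exact ⟨rfl, le_rfl, 0, by simpa using i, Nat.zero_le _⟩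
  · exact ⟨rfl, le_rfl, 0, by simpa using i, Nat.zero_le _⟩
  have hv := (h.alive (by omega)).1
  refine (sp_rdR hK _).bind ?_
  rintro _ t1 ⟨rfl, h1⟩
  refine ((Q _ hv).2 s u t (by omega) i).bind ?_
  rintro ⟨l, s'⟩ t2 ⟨rfl, h2⟩
  refine (sp_pickR _ _).bind ?_
  rintro _ t3 ⟨rfl, h3⟩
  have := (Q _ hv).1
  refine ⟨rfl, by rw [mv_b]; omega, t2, ?_, ?_⟩ <;> dsimp only at * <;>
    rw [mv_b, Nat.sub_sub_self (by omega)]
  · exact h2
  · omega

/-- overhead of one walk -/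
def cW (K K0 bud n : ℕ) : ℕ := 4 * (K0 + (bud + 1) * K) + 6 * bud + n + 12

theorem sp_walkR (N : Net V inl hd K sk w) (S : Start V sk K0 st) (Q : Qry g q V inl w W I)
    (hK : 2 ^ K ≤ g.X) (hK0 : 2 ^ K0 ≤ g.X) {l : List Bool} {o : List (List (ℕ × α))} {s : σ}
    {u t : ℕ} (hu : u + bud ≤ W) (i : I s u t) :
    Sp g (walkR q hd gh w K K0 bud (K0 + (bud + 1) * K) st (l, o, s)) fun r t' =>
      r.1 = l.drop (K0 + (bud + 1) * K) ∧ r.2.1.length ≤ o.length + 1 ∧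
      (∀ P ∈ r.2.1, P ∈ o ∨ Stem V inl hd gh w bud st P) ∧ (∀ P ∈ o, P ∈ r.2.1) ∧
      (∀ F, Won F (walk inl hd gh w K K0 bud st (l.take (K0 + (bud + 1) * K))) →
        ∃ P ∈ r.2.1, ∀ y ∈ P, y.1 ∉ F) ∧
      ∃ u1 t1, u1 ≤ bud ∧ I r.2.2 (u + u1) (t + t1) ∧ t' ≤ t1 + cW K K0 bud st.length := by
  unfold walkR
  refine (sp_splitL _ _).bind ?_
  rintro b t1 ⟨rfl, h1⟩
  refine (sp_rdR hK0 _).bind ?_
  rintro _ t2 ⟨rfl, h2⟩
  refine (sp_pickR _ _).bind ?_
  rintro _ t3 ⟨rfl, h3⟩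
  dsimp only
  rw [walk]
  generalize rd K0 (0, l.take (K0 + (bud + 1) * K)) = r
  have i0 := wi_ini (inl := inl) (hd := hd) (gh := gh) (w := w) (bud := bud) S r.1 r.2
  have b0 : (ini bud (pick r.1 st) r.2 : WS α).b = bud := by cases pick r.1 st <;> rfl
  generalize (ini bud (pick r.1 st) r.2 : WS α) = z0 at i0 b0
  refine (sp_forN (fun j (z : WS α × σ) t' => z.1 = (step inl hd gh w K)^[j] z0 ∧ z.1.b ≤ bud ∧
    ∃ t1, I z.2 (u + (bud - z.1.b)) (t + t1) ∧ t' ≤ t1 + (bud - z.1.b) + j * (K + 3))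
    (fun j z t' _ _ k => ?_) (t := 0) ⟨rfl, b0.le, 0, by simpa [b0] using i, Nat.zero_le _⟩).bind ?_
  · obtain ⟨e, k1, t1, k2, k3⟩ := k
    refine (sp_stepR Q hK (z := z.1) (s := z.2) (e ▸ i0.iter N j) (by omega) k2).mono ?_
    rintro z' t2 ⟨a, b, t3, c, d⟩
    refine ⟨by rw [a, e, Function.iterate_succ_apply'], by omega, t1 + t3, ?_, ?_⟩
    · convert c using 1 <;> omega
    · rw [add_mul]; omega
  rintro ⟨z, s'⟩ _ ⟨t4, rfl, e, k1, t5, k2, k3⟩
  simp only [zero_add] at e k1 k2 k3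
  rw [← e]
  have iz : WI V inl hd gh w bud st z := e ▸ i0.iter N _
  have e1 : (bud + 1) * (K + 3) = (bud + 1) * K + 3 * bud + 3 := by ring
  dsimp only
  split_ifs with c
  · refine (sp_foldP _ _ _).bind ?_
    rintro _ _ ⟨rfl, rfl⟩
    have := iz.len
    refine ⟨rfl, le_rfl, fun P k => (List.mem_cons.1 k).elim (fun k => .inr (k ▸ (iz.stem c).1)) .inl,
      fun P k => List.mem_cons_of_mem _ k, fun F f => ⟨_, List.mem_cons_self, (iz.stem c).2 F f⟩,
      _, t5, Nat.sub_le _ _, k2, ?_⟩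
    unfold cW; omega
  · refine ⟨rfl, Nat.le_succ _, fun P k => .inl k, fun P k => k, fun F f => absurd f.1 c,
      _, t5, Nat.sub_le _ _, k2, ?_⟩
    unfold cW; omega

/-- **the walks**: stems, and for every `F ∈ J` one that avoids `F` -/
theorem sp_walks (N : Net V inl hd K sk w) (S : Start V sk K0 st) (Q : Qry g q V inl w (L * bud) I)
    {J : Finset (Finset ℕ)} {κ ε Ex A p : ℝ} {ex a : ℕ → ℝ} {lg c : ℕ} (hκ : 0 ≤ κ) (hε : 0 ≤ ε)
    (hex0 : ∀ v ∈ V, 0 ≤ ex v) (ha0 : ∀ v ∈ V, 0 ≤ a v) (hw : ∀ v ∈ V, (w v : ℝ) ≤ κ * sk v + ex v)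
    (hg : ∀ v ∈ V, (gf inl gh v : ℝ) ≤ ε * sk v + a v) (hex : ∑ v ∈ V, ex v ≤ Ex)
    (ha : ∑ v ∈ V, a v ≤ A) (hlg : 1 + V.card * 2 ^ K ≤ 2 ^ lg) (hJ : ∀ F ∈ J, F.card ≤ c)
    (hp : 2 * lg * (2 ^ K * κ / (bud + 1) + ε) +
      (2 ^ K * Ex / (bud + 1) + A + 2 ^ K * c) / 2 ^ K0 ≤ p)
    (hd1 : g.d < 1) (hd2 : J.card * p ^ L ≤ g.d) (hK : 2 ^ K ≤ g.X) (hK0 : 2 ^ K0 ≤ g.X)
    (hX : (L + 1) * (K0 + (bud + 1) * K) ≤ g.X) {s : σ} (i : I s 0 0) :
    Sp g (walks q hd gh w K K0 bud L J st s) fun r t => r.1.length ≤ L ∧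
      (∀ P ∈ r.1, Stem V inl hd gh w bud st P) ∧ (∀ F ∈ J, ∃ P ∈ r.1, ∀ y ∈ P, y.1 ∉ F) ∧
      ∃ u t1, u ≤ L * bud ∧ I r.2 u t1 ∧
        t ≤ t1 + L * (cW K K0 bud st.length + (K0 + (bud + 1) * K) + 1) + 2 := by
  unfold walks
  rw [add_mul, one_mul] at hX
  rw [sp_bind, sp_nat, sp_bind, sp_nat, sp_bind, sp_smp]
  have hp0 : 0 ≤ p := le_trans (by
    have := (sum_nonneg hex0).trans hex
    have := (sum_nonneg ha0).trans ha
    positivity) hp
  rcases Nat.eq_zero_or_pos L with rfl | hL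
  · refine ⟨by omega, by omega, (bad_blocks J (p := 1) zero_le_one (fun F _ => ?_) 0).trans
      (by simpa using hd2), fun l _ gl => ?_⟩
    · rw [← sb_const]; exact sb_mono fun l _ => by split_ifs <;> simp
    · exact ⟨Nat.zero_le _, le_rfl, by simp, fun F k => by simpa [blocks] using gl F k, 0, 0,
        Nat.zero_le _, i, by simp⟩
  have e : ∀ l, walk (fun v => det (q (v, s)) Prod.fst) hd gh w K K0 bud st l =
      walk inl hd gh w K K0 bud st l := walk_congr N S fun v hv k => det_eq hd1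
    (((Q v hv).2 s 0 0 (by nlinarith) i).mono fun _ _ h => h.1)
  simp only [e]
  refine ⟨by omega, by omega, (bad_blocks J hp0 (fun F k => N.walk_fail S hκ hε hex0 ha0 hw hg hex
    ha hlg (le_trans ?_ hp)) L).trans hd2, fun l _ gl => ?_⟩
  · have : (F.card : ℝ) ≤ c := by exact_mod_cast hJ F k
    gcongr
  generalize hM : K0 + (bud + 1) * K = M at *
  refine (sp_forN (fun j (z : List Bool × List (List (ℕ × α)) × σ) t' => z.2.1.length ≤ j ∧
    (∀ P ∈ z.2.1, Stem V inl hd gh w bud st P) ∧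
    (∀ F ∈ J, (∃ P ∈ z.2.1, ∀ y ∈ P, y.1 ∉ F) ∨
      ∃ b ∈ blocks M (L - j) z.1, Won F (walk inl hd gh w K K0 bud st b)) ∧
    ∃ u t1, u ≤ j * bud ∧ I z.2.2 u t1 ∧ t' ≤ t1 + j * (cW K K0 bud st.length + 1))
    (fun j z t' _ hj k => ?_) (t := 0) (s := (l, [], s)) (i := 0)
    ⟨le_rfl, by simp, fun F k => .inr (gl F k), 0, 0, Nat.zero_le _, i, Nat.zero_le _⟩).bind ?_
  · obtain ⟨k1, k2, k3, u, t1, k4, k5, k6⟩ := k
    have hj' : (j + 1) * bud ≤ L * bud := Nat.mul_le_mul_right _ (by omega)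
    rw [add_mul, one_mul] at hj'
    refine (hM ▸ sp_walkR N S Q hK hK0 (l := z.1) (o := z.2.1) (by omega) k5).mono ?_
    rintro z' t2 ⟨a1, a2, a3, a4, a5, u1, t3, a6, a7, a8⟩
    refine ⟨by omega, fun P k => (a3 P k).elim (k2 P) id, fun F k => ?_, _, _,
      by rw [add_mul]; omega, a7, by rw [add_mul]; omega⟩
    rcases k3 F k with ⟨P, b1, b2⟩ | ⟨b, b1, b2⟩
    · exact .inl ⟨P, a4 P b1, b2⟩
    · rw [show L - j = L - (j + 1) + 1 by omega, blocks] at b1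
      rcases List.mem_cons.1 b1 with rfl | b1
      · exact .inl (a5 F b2)
      · exact .inr ⟨b, a1 ▸ b1, b2⟩
  rintro z _ ⟨t4, rfl, k1, k2, k3, u, t1, k4, k5, k6⟩
  simp only [zero_add] at k1 k3 k4 k6
  refine ⟨k1, k2, fun F k => (k3 F k).resolve_right (by simp [blocks]), u, t1, k4, k5, ?_⟩
  rw [show L * (cW K K0 bud st.length + M + 1) = L * (cW K K0 bud st.length + 1) + L * M by ring]
  omega

/-! ### implementation -/

instance [Rp α] : Rp (WS α) := Rp.via fun s => (s.v, s.b, s.l, s.acc, s.fl)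

@[fun_prop] theorem impl_rdR [Rp β] {K : β → ℕ} {l : β → List Bool} (hK : Pu true K)
    (hl : Pu true l) : Impl fun a => rdR (K a) (l a) := by impl

@[fun_prop] theorem impl_pickR [Rp α] [Rp β] {r : β → ℕ} {l : β → List (ℕ × α)} (hr : Pu true r)
    (hl : Pu true l) : Impl fun a => pickR (r a) (l a) := by impl

@[fun_prop] theorem impl_walks [Rp α] [Rp σ] [Rp β] {q : β → ℕ × σ → R (List (ℕ × α) × σ)}
    {hd : β → α → Option ℕ} {gh : β → α → Bool} {w : β → ℕ → ℕ} {K K0 bud L : β → ℕ}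
    (J : β → Finset (Finset ℕ)) {st : β → List (ℕ × ℕ)} {s : β → σ}
    (hq : Impl fun p : β × ℕ × σ => q p.1 p.2) (hh : Pu true fun p : β × α => hd p.1 p.2)
    (hg : Pu false fun p : β × α => gh p.1 p.2) (hw : Pu false fun p : β × ℕ => w p.1 p.2)
    (hK : Pu true K) (hK0 : Pu true K0) (hb : Pu true bud) (hL : Pu true L) (hst : Pu true st)
    (hs : Pu true s) :
    Impl fun a => walks (q a) (hd a) (gh a) (w a) (K a) (K0 a) (bud a) (L a) (J a) (st a) (s a) := by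
  impl

end Crest.Agent.N325.Wk
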